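import Vale.Agent.P157.ParisiG.Chain
import Vale.Agent.P157.Parisi.CalcIBP
import Vale.Agent.P157.Parisi.Model

/-!
The hierarchy of one block of spins in radial form.
-/

namespace Vale.Agent.P157.RadG

open MeasureTheory ProbabilityTheory Real Filter Topology Finset

variable {n : ℕ}

/-! ### Radial steps -/

theorem stepLog_radial (m s : ℝ) {U : ℝ → ℝ} (hU : Measurable U) :
    Parisi.stepLog m (fun _ : Fin (n + 1) => s) (fun y => U (nrm y)) =
      fun y => sstep n m s U (nrm y) := by
  funext y
  simp only [Parisi.stepLog, sstep]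
  unfold Parisi.move
  rw [integral_radial y s (f := fun t => exp (m * U t)) (measurable_exp.comp (hU.const_mul m))]

theorem stepAvg_radial (m s : ℝ) {U F : ℝ → ℝ} (hU : Measurable U) (hF : Measurable F) :
    Parisi.stepAvg m (fun _ : Fin (n + 1) => s) (fun y => U (nrm y)) (fun y => F (nrm y)) =
      fun y => avg n (tilt m U) s (nrm y) F := by
  funext y
  have hw : Measurable fun t => exp (m * U t) := measurable_exp.comp (hU.const_mul m)
  simp only [Parisi.stepAvg, Parisi.tilt, avg, tilt]
  unfold Parisi.move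
  rw [integral_radial y s (f := fun t => exp (m * U t) * F t) (hw.mul hF),
    integral_radial y s hw]
  congr 1
  exact integral_congr_ae (Eventually.of_forall fun z => mul_comm _ _)

/-! ### The block -/

theorem gridX_zero (K : ℕ) : Parisi.gridX K 0 = 0 := by simp [Parisi.gridX, Parisi.lvl]

theorem gridX_pos {K l : ℕ} (hl : 1 ≤ l) : 0 < Parisi.gridX K l := by
  refine lt_min one_pos ?_
  rw [Parisi.lvl]
  have : (0 : ℝ) < l := by exact_mod_cast hl
  positivity

theorem gridX_mono (K l : ℕ) : Parisi.gridX K l ≤ Parisi.gridX K (l + 1) := by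
  refine min_le_min_left 1 ?_
  rw [Parisi.lvl, Parisi.lvl]
  gcongr
  simp

theorem gridX_le_one (K l : ℕ) : Parisi.gridX K l ≤ 1 := min_le_left _ _

theorem gridX_eq_lvl {K l : ℕ} (hl : l ≤ K + 1) : Parisi.gridX K l = Parisi.lvl K l := by
  refine min_eq_right ?_
  rw [Parisi.lvl, div_le_one (by positivity)]
  exact_mod_cast hl

theorem blockNest_good (m K : ℕ) (h : ℕ → ℝ) : (Parisi.blockNest m K h).Good where
  x_zero := gridX_zero K
  x_last := by
    show Parisi.gridX K (K + 1) = 1
    rw [gridX_eq_lvl le_rfl, Parisi.lvl]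
    push_cast
    rw [div_self (by positivity)]
  x_pos _ h1 _ := gridX_pos h1
  x_mono l _ := gridX_mono K l

theorem normBlock_sum (m : ℕ) (σ : Fin m → ℝ) :
    ∑ i, Parisi.normBlock σ i ^ 2 = (m : ℝ) := by
  unfold Parisi.normBlock
  split_ifs with h
  · simp
  · simp only [div_pow, mul_pow, Real.sq_sqrt (Nat.cast_nonneg m),
      Real.sq_sqrt (sum_nonneg fun k _ => sq_nonneg (σ k)), mul_div_assoc, ← mul_sum,
      ← sum_div, div_self h, mul_one]

theorem abs_normBlock_le (m : ℕ) (σ : Fin m → ℝ) (i : Fin m) : |Parisi.normBlock σ i| ≤ √m := by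
  refine Real.le_sqrt_of_sq_le ?_
  rw [sq_abs, ← normBlock_sum m σ]
  exact single_le_sum (f := fun k => Parisi.normBlock σ k ^ 2) (fun _ _ => sq_nonneg _) (mem_univ i)

theorem measurable_normBlock (m : ℕ) (i : Fin m) :
    Measurable fun σ : Fin m → ℝ => Parisi.normBlock σ i :=
  Measurable.ite (measurableSet_eq_fun (by fun_prop) measurable_const) measurable_const
    (by fun_prop)

theorem blockLeaf_good (m : ℕ) : (Parisi.blockLeaf m).Good (max 1 √m) where
  nonneg := zero_le_one.trans (le_max_left _ _)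
  meas _ i := measurable_normBlock m i
  bound σ _ i := (abs_normBlock_le m σ i).trans (le_max_right _ _)
  deriv1 _ z := hasDerivAt_id z
  deriv2 _ z := hasDerivAt_const z _
  cont2 _ := continuous_const
  bound1 _ _ := by
    show |(1 : ℝ)| ≤ _
    simp
  bound2 _ _ := by
    show |(0 : ℝ)| ≤ _
    simp

theorem sphereUnif_eq_map (n : ℕ) :
    sphereUnif (n + 1) = (unitUnif (Fin (n + 1))).map fun a i => √(n + 1 : ℕ) * a i := by
  rw [unitUnif, Measure.map_smul, Measure.map_map (by fun_prop) measurable_sphereCoord, sphereUnif]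
  rfl

theorem isProbability_sphereUnif (n : ℕ) : IsProbabilityMeasure (sphereUnif (n + 1)) := by
  rw [sphereUnif_eq_map]
  exact Measure.isProbabilityMeasure_map (Measurable.aemeasurable (by fun_prop))

theorem unitUnif_unit (n : ℕ) : ∀ᵐ a ∂unitUnif (Fin (n + 1)), ∑ i, a i ^ 2 = 1 := by
  have hm : MeasurableSet {a : Fin (n + 1) → ℝ | ∑ i, a i ^ 2 = 1} :=
    measurableSet_eq_fun (by fun_prop) measurable_const
  refine Measure.ae_smul_measure ?_ _
  rw [ae_map_iff measurable_sphereCoord.aemeasurable hm]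
  refine .of_forall fun u => ?_
  have h : ‖(u : EuclideanSpace ℝ (Fin (n + 1)))‖ ^ 2 = 1 := by
    rw [norm_eq_of_mem_sphere, one_pow]
  rw [EuclideanSpace.norm_sq_eq] at h
  simpa [sphereCoord] using h

/-- Almost every configuration is on the sphere. -/
theorem sphereUnif_unit (n : ℕ) : ∀ᵐ σ ∂sphereUnif (n + 1), Parisi.normBlock σ = σ := by
  have hm : MeasurableSet {σ : Fin (n + 1) → ℝ | Parisi.normBlock σ = σ} := by
    simp only [funext_iff, Set.ofPred_forall]
    exact MeasurableSet.iInter fun i =>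
      measurableSet_eq_fun (measurable_normBlock _ i) (measurable_pi_apply i)
  rw [sphereUnif_eq_map, ae_map_iff (Measurable.aemeasurable (by fun_prop)) hm]
  filter_upwards [unitUnif_unit n] with a ha
  funext i
  have hsum : ∑ k, (√(n + 1 : ℕ) * a k) ^ 2 = ((n + 1 : ℕ) : ℝ) := by
    simp only [mul_pow, ← mul_sum, ha, mul_one, Real.sq_sqrt (Nat.cast_nonneg _)]
  have hpos : (0 : ℝ) < ((n + 1 : ℕ) : ℝ) := by positivity
  rw [Parisi.normBlock, if_neg (by rw [hsum]; exact hpos.ne'), hsum]
  field_simp

/-- The profile of the leaf. -/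
noncomputable def leafProf (n : ℕ) (r : ℝ) : ℝ := log (dirExp n (√(n + 1 : ℕ) * r))

theorem nice_leafProf (n : ℕ) : Nice (leafProf n) := by
  set R := √(n + 1 : ℕ)
  have hR : 0 ≤ R := Real.sqrt_nonneg _
  have hd : ∀ r, HasDerivAt (leafProf n) (dirMean n (R * r) * R) r := fun r => by
    have h := (hasDerivAt_log_dirExp n (R * r)).comp r ((hasDerivAt_id r).const_mul R)
    simp only [mul_one] at h
    exact h
  refine ⟨fun r => (hd r).differentiableAt, ?_, ⟨R, fun z => ?_⟩, fun z => ?_⟩
  · intro a b hab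
    rw [(hd a).deriv, (hd b).deriv]
    exact mul_le_mul_of_nonneg_right (monotone_dirMean n (mul_le_mul_of_nonneg_left hab hR)) hR
  · rw [(hd z).deriv, abs_mul, abs_of_nonneg hR]
    exact mul_le_of_le_one_left hR (abs_dirMean_le n _)
  · rw [leafProf, leafProf, mul_neg, dirExp_neg]

theorem blockLeaf_ham (m : ℕ) (σ y : Fin m → ℝ) :
    (Parisi.blockLeaf m).ham σ y = ∑ i, Parisi.normBlock σ i * y i := by
  simp [Parisi.Leaf.ham, Parisi.Leaf.loc, Parisi.blockLeaf]

theorem blockLeaf_vec (m : ℕ) (i : Fin m) (σ y : Fin m → ℝ) :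
    (Parisi.blockLeaf m).vec i σ y = Parisi.normBlock σ i := by
  simp [Parisi.Leaf.vec, Parisi.blockLeaf]

theorem blockLogZ_eq (n : ℕ) :
    (Parisi.blockLeaf (n + 1)).logZ (sphereUnif (n + 1)) = fun y => leafProf n (nrm y) := by
  funext y
  rw [Parisi.Leaf.logZ, leafProf]
  congr 1
  have e : ∀ᵐ σ ∂sphereUnif (n + 1), exp ((Parisi.blockLeaf (n + 1)).ham σ y) =
      exp (∑ i, σ i * y i) := (sphereUnif_unit n).mono fun σ hσ => by
    rw [blockLeaf_ham]
    rw [hσ]
  rw [integral_congr_ae e, sphereUnif_eq_map,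
    integral_map (Measurable.aemeasurable (by fun_prop))
      (Measurable.aestronglyMeasurable (by fun_prop)),
    show √(n + 1 : ℕ) * nrm y = nrm (fun i => √(n + 1 : ℕ) * y i) by
      rw [nrm_smul, abs_of_nonneg (Real.sqrt_nonneg _)],
    ← integral_dir_dot]
  exact integral_congr_ae (Eventually.of_forall fun a =>
    congrArg exp (sum_congr rfl fun i _ => by ring))

theorem integral_exp_dot (v : Fin (n + 1) → ℝ) :
    ∫ z, exp (∑ i, z i * v i) ∂gauss (Fin (n + 1)) = exp (nrm v ^ 2 / 2) := by
  rw [← integral_exp_coord (n := n) (nrm v),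
    ← integral_refl v (f := fun z => exp (nrm v * z 0)) (by fun_prop)]
  exact integral_congr_ae (Eventually.of_forall fun z => congrArg exp (refl_dot v z))

/-- A step with exponent one shifts the leaf by a constant. -/
theorem leafProf_top (n : ℕ) {s : ℝ} (_hs : 0 ≤ s) :
    ∃ c, ∀ r, sstep n 1 s (leafProf n) r = leafProf n r + c := by
  refine ⟨s ^ 2 * (n + 1 : ℕ) / 2, fun r => ?_⟩
  set R := √(n + 1 : ℕ)
  have hR : R ^ 2 = (n + 1 : ℕ) := Real.sq_sqrt (Nat.cast_nonneg _)
  set γ := gauss (Fin (n + 1))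
  set σ := unitUnif (Fin (n + 1))
  have e1 : ∀ z : Fin (n + 1) → ℝ, exp (1 * leafProf n (nrm (mv s r z))) =
      ∫ a, exp (R * r * a 0) * exp (∑ i, z i * (R * s * a i)) ∂σ := fun z => by
    rw [one_mul, leafProf, exp_log (dirExp_pos _ _),
      show R * nrm (mv s r z) = nrm (fun i => R * mv s r z i) by
        rw [nrm_smul, abs_of_nonneg (Real.sqrt_nonneg _)],
      ← integral_dir_dot]
    refine integral_congr_ae (Eventually.of_forall fun a => ?_)
    simp only [← exp_add, mv]
    congr 1
    have : R * r * a 0 = ∑ i, a i * (R * (r * axis n i)) := by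
      simp [axis, Pi.single_apply]
      ring
    rw [this, ← sum_add_distrib]
    exact sum_congr rfl fun i _ => by ring
  have hint : Integrable (fun p : (Fin (n + 1) → ℝ) × (Fin (n + 1) → ℝ) =>
      exp (R * r * p.2 0) * exp (∑ i, p.1 i * (R * s * p.2 i))) (γ.prod σ) := by
    refine (((integrable_exp_sum |R * s|).mul_prod (integrable_const (exp |R * r|))).mono'
      (Measurable.aestronglyMeasurable (by fun_prop)) ?_)
    filter_upwards [Measure.quasiMeasurePreserving_snd.ae (unitUnif_unit n)] with p hp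
    have hi : ∀ i, |p.2 i| ≤ 1 := fun i => by
      rw [← Real.sqrt_one, ← Real.sqrt_sq_eq_abs, ← hp]
      exact Real.sqrt_le_sqrt (single_le_sum (f := fun k => p.2 k ^ 2) (fun k _ => sq_nonneg _)
        (mem_univ i))
    rw [norm_mul, Real.norm_eq_abs, Real.norm_eq_abs, abs_exp, abs_exp, mul_comm]
    refine mul_le_mul (exp_le_exp.2 ?_) (exp_coord_le _ (hi 0)) (exp_pos _).le (exp_pos _).le
    rw [mul_sum]
    refine sum_le_sum fun i _ => ?_
    refine (le_abs_self _).trans ?_
    rw [abs_mul, abs_mul (R * s), mul_comm]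
    exact mul_le_mul_of_nonneg_right (mul_le_of_le_one_right (abs_nonneg _) (hi i)) (abs_nonneg _)
  have e2 : ∀ᵐ a ∂σ, ∫ z, exp (R * r * a 0) * exp (∑ i, z i * (R * s * a i)) ∂γ =
      exp (R * r * a 0) * exp (s ^ 2 * (n + 1 : ℕ) / 2) := by
    filter_upwards [unitUnif_unit n] with a ha
    rw [integral_const_mul, integral_exp_dot, nrm_smul]
    congr 2
    have : nrm a = 1 := by
      rw [nrm, normSqF, ha, Real.sqrt_one]
    rw [this, mul_one, sq_abs, mul_pow, hR]
    ring
  simp only [sstep, inv_one, one_mul] at e1 ⊢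
  simp only [e1]
  rw [integral_integral_swap hint, integral_congr_ae e2, integral_mul_const]
  show log (dirExp n (R * r) * _) = _
  rw [Real.log_mul (dirExp_pos n (R * r)).ne' (exp_pos _).ne', log_exp]
  rfl

/-! ### The recursion in radial form -/

variable (K : ℕ) (h : ℕ → ℝ)

/-- The profiles of the block. -/
noncomputable def bprof (n : ℕ) (l : ℕ) : ℝ → ℝ :=
  prof n K (Parisi.gridX K) (incr h) (leafProf n) l

variable {K}

theorem blockNest_amp (m l : ℕ) :
    (Parisi.blockNest m K h).amp l = fun _ => incr h l := rfl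

theorem nice_bprof {l : ℕ} (hl : l ≤ K) : Nice (bprof K h n l) :=
  nice_prof (nice_leafProf n) (fun _ h1 _ => gridX_pos h1) (incr_nonneg h) hl

theorem u_radial {l : ℕ} (hl : l ≤ K) :
    (Parisi.blockNest (n + 1) K h).u ((Parisi.blockLeaf (n + 1)).logZ (sphereUnif (n + 1))) l =
      fun y => bprof K h n l (nrm y) := by
  refine Nat.decreasingInduction (motive := fun l _ =>
    (Parisi.blockNest (n + 1) K h).u ((Parisi.blockLeaf (n + 1)).logZ (sphereUnif (n + 1))) l =
      fun y => bprof K h n l (nrm y)) (fun k hk ih => ?_) ?_ hl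
  · rw [Parisi.u_succ (N := Parisi.blockNest (n + 1) K h) hk, ih, blockNest_amp,
      stepLog_radial _ _ (nice_bprof (n := n) h hk).diff.continuous.measurable]
    funext y
    rw [bprof, bprof, prof_succ hk]
    rfl
  · rw [Parisi.u_top (N := Parisi.blockNest (n + 1) K h) (l := K) (Nat.le_refl K), blockLogZ_eq,
      bprof, prof_top]

theorem avg_radial {l : ℕ} (hl : l < K) {F : ℝ → ℝ} (hF : Measurable F) :
    (Parisi.blockNest (n + 1) K h).avg ((Parisi.blockLeaf (n + 1)).logZ (sphereUnif (n + 1))) l
        (fun y => F (nrm y)) =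
      fun y => avg n (tilt (Parisi.gridX K (l + 1)) (bprof K h n (l + 1))) (incr h (l + 1))
        (nrm y) F := by
  rw [Parisi.avg_eq_stepAvg, u_radial h (by omega), blockNest_amp,
    stepAvg_radial _ _ (nice_bprof (n := n) h (by omega)).diff.continuous.measurable hF]
  rfl

theorem mean_radial {l : ℕ} (hl : l ≤ K) {F : ℝ → ℝ} (hF : EvenUp F) :
    (Parisi.blockNest (n + 1) K h).mean ((Parisi.blockLeaf (n + 1)).logZ (sphereUnif (n + 1))) l
        (fun y => F (nrm y)) = pmean n (Parisi.gridX K) (incr h) (bprof K h n) l F := by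
  induction l generalizing F with
  | zero =>
    simp only [Parisi.Nest.mean, pmean, avg, mul_one, integral_const, probReal_univ, one_smul,
      div_one, blockNest_amp, nrm_mv_zero (incr_nonneg h 0)]
    simp only [nrm_smul, abs_of_nonneg (incr_nonneg h 0)]
  | succ l ih =>
    simp only [Parisi.Nest.mean, pmean]
    rw [avg_radial h (by omega) hF.meas]
    exact ih (by omega) (evenUp_pmean_step (U := bprof K h n) (a := incr h) (x := Parisi.gridX K)
      (nice_bprof h (by omega)) (incr_nonneg h _) hF)

theorem grad_sq_sum {l : ℕ} (hl : l ≤ K) (y : Fin (n + 1) → ℝ) :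
    ∑ i, (Parisi.blockNest (n + 1) K h).grad (Parisi.blockLeaf (n + 1)) (sphereUnif (n + 1)) l i y
        ^ 2 = deriv (bprof K h n l) (nrm y) ^ 2 := by
  have := isProbability_sphereUnif n
  set U := bprof K h n l
  have hU : Nice U := nice_bprof h hl
  have hg : ∀ i, (Parisi.blockNest (n + 1) K h).grad (Parisi.blockLeaf (n + 1))
      (sphereUnif (n + 1)) l i y = deriv U (nrm y) * udir y i := by
    intro i
    have h1 := Parisi.hasDerivAt_u (blockNest_good (n + 1) K h) (blockLeaf_good (n + 1))
      (μ := sphereUnif (n + 1)) hl y (Pi.single i 1)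
    rw [u_radial h hl] at h1
    simp only [Pi.single_apply, ite_mul, one_mul, zero_mul, sum_ite_eq', mem_univ, if_pos,
      mul_ite, mul_one, mul_zero] at h1
    refine h1.unique ?_
    rcases eq_or_ne (normSqF y) 0 with h0 | h0
    · have hy : ∀ k, y k = 0 := fun k => by
        simpa using (sum_eq_zero_iff_of_nonneg fun j _ => sq_nonneg (y j)).1 h0 k (mem_univ k)
      have hu0 : udir y i = 0 := by simp [udir, hy]
      have e : ∀ t : ℝ, U (nrm fun k => y k + if k = i then t else 0) = U t := fun t => by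
        have : nrm (fun k => y k + if k = i then t else 0) = |t| := by
          simp [nrm, normSqF, hy, ite_pow, Real.sqrt_sq_eq_abs]
        rw [this]
        rcases abs_choice t with e | e <;> rw [e]
        exact hU.even t
      rw [show (fun t : ℝ => bprof K h n l (nrm fun k => y k + if k = i then t else 0)) = U from
        funext e, hu0, mul_zero]
      simpa [hU.deriv_zero] using (hU.diff 0).hasDerivAt
    · have hsq : HasDerivAt (fun t : ℝ => normSqF fun k => y k + if k = i then t else 0)
          (2 * y i) 0 := by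
        have hk : ∀ k ∈ (univ : Finset (Fin (n + 1))),
            HasDerivAt (fun t : ℝ => (y k + if k = i then t else 0) ^ 2)
              (if k = i then 2 * y k else 0) 0 := fun k _ => by
          by_cases hki : k = i
          · simpa [hki] using ((hasDerivAt_id (0 : ℝ)).const_add (y i)).fun_pow 2
          · simpa [hki] using hasDerivAt_const (0 : ℝ) (y k ^ 2)
        refine (HasDerivAt.fun_sum hk).congr_deriv ?_
        simp
      have hz : (fun k => y k + if k = i then (0 : ℝ) else 0) = y := by simp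
      have hsq' := hsq.sqrt (by rw [hz]; exact h0)
      rw [hz] at hsq'
      have hc := HasDerivAt.comp
        (h := fun t : ℝ => √(normSqF fun k => y k + if k = i then t else 0))
        (h₂ := U) (0 : ℝ) (by rw [hz]; exact (hU.diff (nrm y)).hasDerivAt) hsq'
      refine (hc.congr_deriv ?_)
      simp only [udir]
      have : √(normSqF y) ≠ 0 := by
        rw [Real.sqrt_ne_zero']; exact (normSqF_nonneg _).lt_of_ne' h0
      field_simp
  simp only [hg, mul_pow, ← mul_sum]
  rcases eq_or_ne (normSqF y) 0 with h0 | h0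
  · simp [nrm, h0, hU.deriv_zero]
  · have : ∑ i, udir y i ^ 2 = 1 := by
      simp only [udir, div_pow, Real.sq_sqrt (normSqF_nonneg y), ← sum_div]
      exact div_self h0
    rw [this, mul_one]

theorem mean_finset_sum {β : Type*} {l : ℕ} (hl : l ≤ K) (T : Finset β)
    {f : β → (Fin (n + 1) → ℝ) → ℝ} (hf : ∀ b ∈ T, Parisi.Tame (f b)) :
    (Parisi.blockNest (n + 1) K h).mean ((Parisi.blockLeaf (n + 1)).logZ (sphereUnif (n + 1))) l
        (fun y => ∑ b ∈ T, f b y) =
      ∑ b ∈ T, (Parisi.blockNest (n + 1) K h).mean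
        ((Parisi.blockLeaf (n + 1)).logZ (sphereUnif (n + 1))) l (f b) := by
  classical
  have := isProbability_sphereUnif n
  induction T using Finset.induction_on with
  | empty =>
    simp only [sum_empty]
    exact Parisi.mean_const (blockNest_good (n + 1) K h) (blockLeaf_good (n + 1))
      (μ := sphereUnif (n + 1)) hl 0
  | insert a T ha ih =>
    simp only [sum_insert ha]
    rw [Parisi.mean_add (blockNest_good (n + 1) K h) (blockLeaf_good (n + 1))
      (μ := sphereUnif (n + 1)) hl (hf a (mem_insert_self a T))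
      (Parisi.tame_sum T fun b hb => hf b (mem_insert_of_mem hb)),
      ih fun b hb => hf b (mem_insert_of_mem hb)]

/-- The overlap of a level is a mean squared slope. -/
theorem sqGrad_sum {l : ℕ} (hl : l ≤ K) :
    ∑ i, (Parisi.blockNest (n + 1) K h).sqGrad (Parisi.blockLeaf (n + 1)) (sphereUnif (n + 1)) l i =
      qv n K (Parisi.gridX K) (incr h) (leafProf n) l := by
  have := isProbability_sphereUnif n
  simp only [Parisi.Nest.sqGrad]
  rw [← mean_finset_sum h hl univ fun i _ =>
    (Parisi.grad_tame (blockNest_good (n + 1) K h) (blockLeaf_good (n + 1)) hl i).sq]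
  simp only [grad_sq_sum h hl]
  rw [mean_radial h hl (evenUp_sq (nice_bprof (n := n) h hl))]
  rfl

/-- The squared length of a configuration is constant, so the heat at the leaf is too. -/
theorem heat_sum (y : Fin (n + 1) → ℝ) :
    ∑ i, (Parisi.blockNest (n + 1) K h).heat (Parisi.blockLeaf (n + 1)) (sphereUnif (n + 1)) K i y =
      (n + 1 : ℕ) := by
  have := isProbability_sphereUnif n
  have hL := blockLeaf_good (n + 1)
  set L := Parisi.blockLeaf (n + 1)
  set μ := sphereUnif (n + 1)
  have e : ∀ i, (Parisi.blockNest (n + 1) K h).heat L μ K i y =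
      L.gibbs μ (fun σ _ => Parisi.normBlock σ i ^ 2) y := fun i => by
    have h1 := Parisi.heat_top (blockNest_good (n + 1) K h) hL (μ := μ) i y
    refine h1.trans ?_
    congr 1
    funext σ v
    rw [blockLeaf_vec]
    simp [L, Parisi.blockLeaf]
  have hobs : ∀ i : Fin (n + 1),
      Parisi.Obs fun (σ : Fin (n + 1) → ℝ) (_ : Fin (n + 1) → ℝ) => Parisi.normBlock σ i ^ 2 :=
    fun i => ⟨fun _ => (measurable_normBlock _ i).pow_const 2,
      fun _ => continuous_const, √(n + 1 : ℕ) ^ 2, fun σ _ => by
        rw [abs_pow]; exact pow_le_pow_left₀ (abs_nonneg _) (abs_normBlock_le _ σ i) 2⟩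
  simp only [e]
  have hsum : ∀ T : Finset (Fin (n + 1)),
      ∑ i ∈ T, L.gibbs μ (fun σ _ => Parisi.normBlock σ i ^ 2) y =
        L.gibbs μ (fun σ _ => ∑ i ∈ T, Parisi.normBlock σ i ^ 2) y := by
    intro T
    induction T using Finset.induction_on with
    | empty => simp only [sum_empty]; exact (Parisi.gibbs_const hL 0 y).symm
    | insert a T ha ih =>
      simp only [sum_insert ha]
      rw [ih]
      exact (Parisi.gibbs_add hL (hobs a) (Parisi.obs_sum T fun b => hobs b) y).symm
  rw [hsum]
  simp only [normBlock_sum]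
  exact Parisi.gibbs_const hL _ y

end Vale.Agent.P157.RadG
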