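import Vale.Agent.P157.ParisiG.Link

/-!
One spin: the block recursion is the recursion of the Ising formula.
-/

namespace Vale.Agent.P157.RadG

open MeasureTheory ProbabilityTheory Real Filter Topology Finset

theorem nrm_one (y : Fin (0 + 1) → ℝ) : nrm y = |y 0| := by
  simp [nrm, normSqF, Real.sqrt_sq_eq_abs]

theorem dirExp_one (t : ℝ) : dirExp 0 t = cosh t := by
  have h1 : dirExp 0 t = (∫ a, (exp (t * a 0) + exp (-t * a 0)) / 2 ∂unitUnif (Fin (0 + 1))) := by
    rw [integral_div, integral_add (integrable_dirExp t) (integrable_dirExp (-t))]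
    show dirExp 0 t = (dirExp 0 t + dirExp 0 (-t)) / 2
    rw [dirExp_neg]
    ring
  rw [h1]
  have h2 : ∀ᵐ a ∂unitUnif (Fin (0 + 1)), (exp (t * a 0) + exp (-t * a 0)) / 2 = cosh t :=
    (unitUnif_unit 0).mono fun a ha => by
      have ha' : a 0 ^ 2 = 1 := by simpa using ha
      rw [neg_mul, ← cosh_eq]
      rcases sq_eq_one_iff.1 ha' with e | e <;> rw [e] <;> simp
  rw [integral_congr_ae h2]
  simp

theorem leafProf_one : leafProf 0 = fun y => log (cosh y) := by
  funext y
  simp [leafProf, dirExp_one]

theorem integral_gauss_one {F : ℝ → ℝ} (hF : Measurable F) :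
    ∫ z, F (z 0) ∂gauss (Fin (0 + 1)) = ∫ g, F g ∂gaussianReal 0 1 := by
  unfold gauss
  exact integral_comp_eval (μ := fun _ : Fin (0 + 1) => gaussianReal 0 1) (i := 0)
    hF.aestronglyMeasurable

theorem sstep_one {U : ℝ → ℝ} (hU : Nice U) (m v : ℝ) :
    sstep 0 m √v U = Parisi.gaussStep m v U := by
  funext r
  rw [sstep, Parisi.gaussStep]
  congr 2
  rw [← integral_gauss_one (F := fun g => exp (m * U (r + √v * g)))
    (measurable_exp.comp ((hU.diff.continuous.measurable.comp (by fun_prop)).const_mul m))]
  refine integral_congr_ae (Eventually.of_forall fun z => ?_)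
  simp only [nrm_one, mv, axis, Pi.single_eq_same, mul_one]
  rcases abs_choice (r + √v * z 0) with e | e <;> rw [e]
  rw [hU.even]

theorem profUp_one (K : ℕ) (h : ℕ → ℝ) {d : ℕ} (hd : d ≤ K) :
    profUp 0 K (Parisi.gridX K) (incr h) (leafProf 0) d =
      Parisi.descend K h (fun y => log (cosh y)) d := by
  induction d with
  | zero => simp [profUp, Parisi.descend, leafProf_one]
  | succ d ih =>
    have hN : Nice (profUp 0 K (Parisi.gridX K) (incr h) (leafProf 0) d) := by
      have := nice_bprof (n := 0) (K := K) h (show K - d ≤ K by omega)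
      rwa [bprof, prof, Nat.sub_sub_self (by omega)] at this
    rw [profUp, Parisi.descend, ← ih (by omega), ← sstep_one hN,
      gridX_eq_lvl (by omega)]
    congr 1
    simp only [incr, if_neg (show K - d ≠ 0 by omega)]

theorem blockField_one (K : ℕ) (h : ℕ → ℝ) :
    Parisi.blockField 1 K h = Parisi.isingField K h := by
  have := isProbability_sphereUnif 0
  have hN := nice_bprof (n := 0) (K := K) h (Nat.zero_le K)
  rw [Parisi.blockField, Parisi.isingField, Nat.cast_one, div_one]
  congr 1
  show (Parisi.blockNest (0 + 1) K h).free (Parisi.blockLeaf (0 + 1)) (sphereUnif (0 + 1)) = _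
  simp only [Parisi.Nest.free, Parisi.Nest.mean, u_radial h (Nat.zero_le K), blockNest_amp]
  rw [Parisi.cascade, show incr h 0 = √(h 0) from if_pos rfl,
    ← profUp_one K h le_rfl, ← integral_gauss_one
      (F := fun g => profUp 0 K (Parisi.gridX K) (incr h) (leafProf 0) K (√(h 0) * g)) ?_]
  · refine integral_congr_ae (Eventually.of_forall fun z => ?_)
    simp only [nrm_one, bprof, prof, Nat.sub_zero]
    rcases abs_choice (√(h 0) * z 0) with e | e <;> rw [e]
    exact (show Nice (profUp 0 K (Parisi.gridX K) (incr h) (leafProf 0) K) by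
      simpa [bprof, prof] using hN).even _
  · have h1 : Nice (profUp 0 K (Parisi.gridX K) (incr h) (leafProf 0) K) := by
      simpa [bprof, prof] using hN
    exact h1.diff.continuous.measurable.comp (by fun_prop)

end Vale.Agent.P157.RadG
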