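import Vale.Agent.P157.ParisiG.Radial

/-!
One radial recursion step `u ↦ m⁻¹ log E exp (m u |r e + s z|)` and finite comparisons of two such
steps.
-/

namespace Vale.Agent.P157.RadG

open MeasureTheory ProbabilityTheory Real Filter Topology Finset

variable {n : ℕ}

/-- Positive measurable weights of exponential growth. -/
structure Tame (w : ℝ → ℝ) : Prop where
  meas : Measurable w
  pos : ∀ z, 0 < w z
  bound : ∃ A B : ℝ, 0 ≤ B ∧ ∀ z, w z ≤ A * exp (B * |z|)

/-- Bounded measurable functions increasing in the absolute value. -/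
structure EvenUp (F : ℝ → ℝ) : Prop where
  meas : Measurable F
  bdd : ∃ C : ℝ, ∀ z, |F z| ≤ C
  mono : ∀ a b, |a| ≤ |b| → F a ≤ F b

theorem EvenUp.abs {F : ℝ → ℝ} (hF : EvenUp F) (z : ℝ) : F |z| = F z :=
  le_antisymm (hF.mono _ _ (by rw [abs_abs])) (hF.mono _ _ (by rw [abs_abs]))

/-- Even convex functions with bounded slope. -/
structure Nice (u : ℝ → ℝ) : Prop where
  diff : Differentiable ℝ u
  mono : Monotone (deriv u)
  slope_le : ∃ L : ℝ, ∀ z, |deriv u z| ≤ L
  even : ∀ z, u (-z) = u z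

/-- A function decreasing in the absolute value. -/
def Dec (d : ℝ → ℝ) : Prop := ∀ a b : ℝ, |b| ≤ |a| → d a ≤ d b

/-- The tilt of a recursion step. -/
noncomputable def tilt (m : ℝ) (u : ℝ → ℝ) (z : ℝ) : ℝ := exp (m * u z)

/-- The tilted average of a radial function after a Gaussian step of size `s` from length `r`. -/
noncomputable def avg (n : ℕ) (w : ℝ → ℝ) (s r : ℝ) (F : ℝ → ℝ) : ℝ :=
  (∫ z, F (nrm (mv s r z)) * w (nrm (mv s r z)) ∂gauss (Fin (n + 1))) /
    ∫ z, w (nrm (mv s r z)) ∂gauss (Fin (n + 1))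

/-- The first component of the gradient of a radial function. -/
noncomputable def slope (u : ℝ → ℝ) (y : Fin (n + 1) → ℝ) : ℝ := deriv u (nrm y) * udir y 0

/-- The tilted average of the first component of the gradient. -/
noncomputable def davg (n : ℕ) (w : ℝ → ℝ) (s r : ℝ) (u : ℝ → ℝ) : ℝ :=
  (∫ z, slope u (mv s r z) * w (nrm (mv s r z)) ∂gauss (Fin (n + 1))) /
    ∫ z, w (nrm (mv s r z)) ∂gauss (Fin (n + 1))

/-- The recursion step. -/
noncomputable def sstep (n : ℕ) (m s : ℝ) (u : ℝ → ℝ) (r : ℝ) : ℝ :=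
  m⁻¹ * log (∫ z, exp (m * u (nrm (mv s r z))) ∂gauss (Fin (n + 1)))

/-! ### Integrability -/

theorem Tame.bound_nonneg {w : ℝ → ℝ} (hw : Tame w) :
    ∃ A B : ℝ, 0 ≤ A ∧ 0 ≤ B ∧ ∀ z, w z ≤ A * exp (B * |z|) := by
  obtain ⟨A, B, hB, hA⟩ := hw.bound
  exact ⟨A, B, by simpa using (hw.pos 0).le.trans (hA 0), hB, hA⟩

theorem integrable_step {w : ℝ → ℝ} (hw : Tame w) {Φ : (Fin (n + 1) → ℝ) → ℝ}
    (hΦ : Measurable Φ) {C : ℝ} (hC : ∀ z, |Φ z| ≤ C) (s r : ℝ) :
    Integrable (fun z => Φ z * w (nrm (mv s r z))) (gauss (Fin (n + 1))) := by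
  obtain ⟨A, B, hA0, hB, hA⟩ := hw.bound_nonneg
  refine integrable_of_growth (hΦ.mul (hw.meas.comp (measurable_nrm.comp (measurable_mv s r))))
    (A := C * A * exp (B * |r|)) (k := B * |s|) fun z => ?_
  rw [abs_mul, abs_of_pos (hw.pos _), mul_assoc C, mul_assoc C]
  refine mul_le_mul (hC z) ((hA _).trans ?_) (hw.pos _).le ((abs_nonneg _).trans (hC z))
  rw [mul_assoc, ← exp_add, abs_of_nonneg (nrm_nonneg _)]
  refine mul_le_mul_of_nonneg_left (exp_le_exp.2 ?_) hA0
  rw [mul_assoc, ← mul_add]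
  exact mul_le_mul_of_nonneg_left (nrm_mv_le s r z) hB

theorem integrable_step' {w : ℝ → ℝ} (hw : Tame w) (s r : ℝ) :
    Integrable (fun z => w (nrm (mv s r z))) (gauss (Fin (n + 1))) := by
  simpa using integrable_step (n := n) hw (Φ := fun _ => 1) measurable_const (C := 1)
    (fun _ => by simp) s r

theorem integral_pos_of_pos {f : (Fin (n + 1) → ℝ) → ℝ} (hi : Integrable f (gauss (Fin (n + 1))))
    (hf : ∀ z, 0 < f z) : 0 < ∫ z, f z ∂gauss (Fin (n + 1)) := by
  rw [integral_pos_iff_support_of_nonneg (fun z => (hf z).le) hi]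
  have : Function.support f = Set.univ := Set.eq_univ_of_forall fun z => (hf z).ne'
  rw [this, measure_univ]
  exact one_pos

theorem integral_pos_step {w : ℝ → ℝ} (hw : Tame w) (s r : ℝ) :
    0 < ∫ z, w (nrm (mv s r z)) ∂gauss (Fin (n + 1)) :=
  integral_pos_of_pos (integrable_step' hw s r) fun _ => hw.pos _

theorem integrable_weight {w : ℝ → ℝ} (hw : Tame w) (s c : ℝ) {Φ : (Fin (n + 1) → ℝ) → ℝ}
    (hΦ : Measurable Φ) {C : ℝ} (hC : ∀ z, |Φ z| ≤ C) {E : (Fin (n + 1) → ℝ) → ℝ}
    (hE : Measurable E) (hE0 : ∀ z, 0 ≤ E z) (hEb : ∀ z, E z ≤ exp (|c| * nrm z)) :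
    Integrable (fun z => Φ z * (w (s * nrm z) * E z)) (gauss (Fin (n + 1))) := by
  obtain ⟨A, B, hA0, hB, hA⟩ := hw.bound_nonneg
  refine integrable_of_growth
    (hΦ.mul ((hw.meas.comp (measurable_nrm.const_mul s)).mul hE))
    (A := C * A) (k := B * |s| + |c|) fun z => ?_
  rw [abs_mul, abs_mul, abs_of_pos (hw.pos _), abs_of_nonneg (hE0 z), mul_assoc C]
  refine mul_le_mul (hC z) ?_ (mul_nonneg (hw.pos _).le (hE0 z)) ((abs_nonneg _).trans (hC z))
  refine (mul_le_mul (hA _) (hEb z) (hE0 z) (mul_nonneg hA0 (exp_pos _).le)).trans ?_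
  rw [mul_assoc, ← exp_add, abs_mul, abs_of_nonneg (nrm_nonneg z)]
  refine mul_le_mul_of_nonneg_left (exp_le_exp.2 ?_) hA0
  rw [← mul_assoc, ← add_mul]
  exact mul_le_mul_of_nonneg_left (nrm_le_sum z) (by positivity)

/-- The radial kernel. -/
noncomputable def kern (w : ℝ → ℝ) (s c : ℝ) (z : Fin (n + 1) → ℝ) : ℝ :=
  w (s * nrm z) * dirExp n (c * nrm z)

theorem integrable_kern {w : ℝ → ℝ} (hw : Tame w) (s c : ℝ) {Φ : (Fin (n + 1) → ℝ) → ℝ}
    (hΦ : Measurable Φ) {C : ℝ} (hC : ∀ z, |Φ z| ≤ C) :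
    Integrable (fun z => Φ z * kern w s c z) (gauss (Fin (n + 1))) :=
  integrable_weight hw s c hΦ hC
    ((continuous_dirExp n).measurable.comp (measurable_nrm.const_mul c))
    (fun z => (dirExp_pos _ _).le)
    fun z => (dirExp_le n _).trans (by rw [abs_mul, abs_of_nonneg (nrm_nonneg z)])

theorem integrable_kern' {w : ℝ → ℝ} (hw : Tame w) (s c : ℝ) :
    Integrable (kern (n := n) w s c) (gauss (Fin (n + 1))) := by
  simpa using integrable_kern (n := n) hw s c (Φ := fun _ => 1) measurable_const (C := 1)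
    (fun _ => by simp)

theorem kern_pos {w : ℝ → ℝ} (hw : Tame w) (s c : ℝ) (z : Fin (n + 1) → ℝ) : 0 < kern w s c z :=
  mul_pos (hw.pos _) (dirExp_pos _ _)

theorem exp_coord_le_nrm (c : ℝ) (z : Fin (n + 1) → ℝ) : exp (c * z 0) ≤ exp (|c| * nrm z) := by
  refine exp_le_exp.2 ((le_abs_self _).trans ?_)
  rw [abs_mul]
  exact mul_le_mul_of_nonneg_left (abs_le_nrm z 0) (abs_nonneg c)

/-! ### The kernel form of the averages -/

theorem udir_smul {s : ℝ} (hs : 0 < s) (z : Fin (n + 1) → ℝ) (i : Fin (n + 1)) :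
    udir (fun k => s * z k) i = udir z i := by
  have h : √(normSqF fun k => s * z k) = |s| * √(normSqF z) := nrm_smul s z
  simp only [udir, h, abs_of_pos hs]
  exact mul_div_mul_left _ _ hs.ne'

theorem mv_eq_smul {s : ℝ} (hs : s ≠ 0) (r : ℝ) (z : Fin (n + 1) → ℝ) :
    mv s r z = fun i => s * (z i + r / s * axis n i) := by
  funext i
  simp only [mv]
  field_simp
  ring

theorem integral_step_kern {w : ℝ → ℝ} (hw : Tame w) {s : ℝ} (hs : 0 < s) (r : ℝ) {F : ℝ → ℝ}
    (hF : Measurable F) {C : ℝ} (hC : ∀ z, |F z| ≤ C) :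
    ∫ z, F (nrm (mv s r z)) * w (nrm (mv s r z)) ∂gauss (Fin (n + 1)) =
      exp (-(r / s) ^ 2 / 2) *
        ∫ z, F (s * nrm z) * kern w s (r / s) z ∂gauss (Fin (n + 1)) := by
  simp only [mv_eq_smul hs.ne', nrm_smul, abs_of_pos hs]
  rw [integral_gauss_shift (fun z : Fin (n + 1) → ℝ => F (s * nrm z) * w (s * nrm z)) (r / s)]
  congr 1
  rw [integral_radial_exp (F := fun t => F (s * t) * w (s * t))
    ((hF.comp (measurable_id.const_mul s)).mul (hw.meas.comp (measurable_id.const_mul s))) (r / s)]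
  · simp only [kern, mul_assoc]
  · simpa only [mul_assoc] using integrable_weight (n := n) hw s (r / s)
      (Φ := fun z => F (s * nrm z)) (hF.comp (measurable_nrm.const_mul s)) (fun z => hC _)
      (E := fun z => exp (r / s * z 0)) (by fun_prop) (fun z => (exp_pos _).le)
      (exp_coord_le_nrm _)

theorem integral_step_kern' {w : ℝ → ℝ} (hw : Tame w) {s : ℝ} (hs : 0 < s) (r : ℝ) :
    ∫ z, w (nrm (mv s r z)) ∂gauss (Fin (n + 1)) =
      exp (-(r / s) ^ 2 / 2) * ∫ z, kern w s (r / s) z ∂gauss (Fin (n + 1)) := by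
  simpa using integral_step_kern (n := n) hw hs r (F := fun _ => 1) measurable_const (C := 1)
    (fun _ => by simp)

theorem avg_eq_kern {w : ℝ → ℝ} (hw : Tame w) {s : ℝ} (hs : 0 < s) (r : ℝ) {F : ℝ → ℝ}
    (hF : Measurable F) {C : ℝ} (hC : ∀ z, |F z| ≤ C) :
    avg n w s r F = (∫ z, F (s * nrm z) * kern w s (r / s) z ∂gauss (Fin (n + 1))) /
      ∫ z, kern w s (r / s) z ∂gauss (Fin (n + 1)) := by
  rw [avg, integral_step_kern hw hs r hF hC, integral_step_kern' hw hs r,
    mul_div_mul_left _ _ (exp_pos _).ne']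

theorem davg_eq_kern {w : ℝ → ℝ} (hw : Tame w) {u : ℝ → ℝ} (hu : Nice u) {s : ℝ} (hs : 0 < s)
    (r : ℝ) :
    davg n w s r u = (∫ z, deriv u (s * nrm z) * dirMean n (r / s * nrm z) * kern w s (r / s) z
        ∂gauss (Fin (n + 1))) / ∫ z, kern w s (r / s) z ∂gauss (Fin (n + 1)) := by
  obtain ⟨L, hL⟩ := hu.slope_le
  rw [davg, integral_step_kern' hw hs r]
  simp only [slope, mv_eq_smul hs.ne', udir_smul hs, nrm_smul, abs_of_pos hs]
  rw [integral_gauss_shift
    (fun z : Fin (n + 1) → ℝ => deriv u (s * nrm z) * udir z 0 * w (s * nrm z)) (r / s),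
    mul_div_mul_left _ _ (exp_pos _).ne']
  congr 1
  have e : (fun z : Fin (n + 1) → ℝ =>
      deriv u (s * nrm z) * udir z 0 * w (s * nrm z) * exp (r / s * z 0)) =
      fun z => deriv u (s * nrm z) * w (s * nrm z) * (udir z 0 * exp (r / s * z 0)) := by
    funext z; ring
  rw [e, integral_radial_exp1 (F := fun t => deriv u (s * t) * w (s * t))
    (((measurable_deriv u).comp (measurable_id.const_mul s)).mul
      (hw.meas.comp (measurable_id.const_mul s))) (r / s)]
  · exact integral_congr_ae (Eventually.of_forall fun z => by simp only [kern]; ring)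
  · refine (integrable_weight (n := n) hw s (r / s) (C := L)
      (Φ := fun z => deriv u (s * nrm z) * udir z 0)
      (((measurable_deriv u).comp (measurable_nrm.const_mul s)).mul
        ((measurable_pi_apply 0).comp measurable_udir)) (fun z => ?_)
      (E := fun z => exp (r / s * z 0)) (by fun_prop) (fun z => (exp_pos _).le)
      (exp_coord_le_nrm _)).congr (Eventually.of_forall fun z => by ring)
    rw [abs_mul]
    exact (mul_le_of_le_one_right (abs_nonneg _) (abs_udir_le z 0)).trans (hL _)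

/-! ### Comparisons -/

/-- Chebyshev's association inequality, cross-multiplied. -/
theorem cheb {α : Type*} [MeasurableSpace α] {μ : Measure α} [SFinite μ] {F w₁ w₂ : α → ℝ}
    (h₁ : Integrable w₁ μ) (h₂ : Integrable w₂ μ) (hF₁ : Integrable (fun a => F a * w₁ a) μ)
    (hF₂ : Integrable (fun a => F a * w₂ a) μ)
    (h : ∀ a b, 0 ≤ (F a - F b) * (w₁ a * w₂ b - w₁ b * w₂ a)) :
    (∫ a, F a * w₂ a ∂μ) * (∫ a, w₁ a ∂μ) ≤ (∫ a, F a * w₁ a ∂μ) * (∫ a, w₂ a ∂μ) := by
  have h0 : 0 ≤ ∫ z : α × α, (F z.1 * w₁ z.1 * w₂ z.2 - F z.1 * w₂ z.1 * w₁ z.2) -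
      (w₁ z.1 * (F z.2 * w₂ z.2) - w₂ z.1 * (F z.2 * w₁ z.2)) ∂μ.prod μ := by
    refine integral_nonneg fun z => le_of_le_of_eq (h z.1 z.2) ?_
    ring
  have A1 := hF₁.mul_prod h₂
  have A2 := hF₂.mul_prod h₁
  have A3 := h₁.mul_prod hF₂
  have A4 := h₂.mul_prod hF₁
  rw [integral_sub, integral_sub A1 A2, integral_sub A3 A4,
    integral_prod_mul (fun a => F a * w₁ a) w₂, integral_prod_mul (fun a => F a * w₂ a) w₁,
    integral_prod_mul w₁ (fun a => F a * w₂ a), integral_prod_mul w₂ (fun a => F a * w₁ a)] at h0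
  · linarith
  · exact A1.sub A2
  · exact A3.sub A4

/-- A larger function under a weight moved towards larger lengths. -/
theorem ratio_le {F₁ F₂ v₁ v₂ : (Fin (n + 1) → ℝ) → ℝ}
    (i₁ : Integrable v₁ (gauss (Fin (n + 1)))) (i₂ : Integrable v₂ (gauss (Fin (n + 1))))
    (p₁ : ∀ z, 0 < v₁ z) (p₂ : ∀ z, 0 < v₂ z)
    (i11 : Integrable (fun z => F₁ z * v₁ z) (gauss (Fin (n + 1))))
    (i21 : Integrable (fun z => F₂ z * v₁ z) (gauss (Fin (n + 1))))
    (i22 : Integrable (fun z => F₂ z * v₂ z) (gauss (Fin (n + 1))))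
    (hle : ∀ z, F₁ z ≤ F₂ z) (hF : ∀ a b, nrm b ≤ nrm a → F₂ b ≤ F₂ a)
    (hv : ∀ a b, nrm b ≤ nrm a → v₂ b * v₁ a ≤ v₂ a * v₁ b) :
    (∫ z, F₁ z * v₁ z ∂gauss (Fin (n + 1))) / ∫ z, v₁ z ∂gauss (Fin (n + 1)) ≤
      (∫ z, F₂ z * v₂ z ∂gauss (Fin (n + 1))) / ∫ z, v₂ z ∂gauss (Fin (n + 1)) := by
  have hp₁ := integral_pos_of_pos i₁ p₁
  have hp₂ := integral_pos_of_pos i₂ p₂
  refine (div_le_div_of_nonneg_right
    (integral_mono i11 i21 fun z => mul_le_mul_of_nonneg_right (hle z) (p₁ z).le) hp₁.le).trans ?_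
  rw [div_le_div_iff₀ hp₁ hp₂]
  refine cheb i₂ i₁ i22 i21 fun a b => ?_
  rcases le_total (nrm b) (nrm a) with h | h
  · exact mul_nonneg (sub_nonneg.2 (hF a b h)) (sub_nonneg.2 (hv a b h))
  · exact mul_nonneg_of_nonpos_of_nonpos (sub_nonpos.2 (hF b a h)) (sub_nonpos.2 (hv b a h))

theorem kern_cross {wu wv : ℝ → ℝ} (hu : Tame wu) (hv : Tame wv)
    (hw : ∀ a b, 0 ≤ b → b ≤ a → wu b * wv a ≤ wu a * wv b) {s : ℝ} (hs : 0 ≤ s) {p q : ℝ}
    (hp : 0 ≤ p) (hpq : p ≤ q) {a b : Fin (n + 1) → ℝ} (hab : nrm b ≤ nrm a) :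
    kern wu s q b * kern wv s p a ≤ kern wu s q a * kern wv s p b := by
  have h1 := dirExp_cross n (nrm_nonneg b) hab hp hpq
  have h2 := hw _ _ (mul_nonneg hs (nrm_nonneg b)) (mul_le_mul_of_nonneg_left hab hs)
  have := mul_le_mul h2 h1 (mul_pos (dirExp_pos _ _) (dirExp_pos _ _)).le
    (mul_pos (hu.pos _) (hv.pos _)).le
  simp only [kern]
  linarith

theorem avg_zero_step {w : ℝ → ℝ} (hw : Tame w) (r : ℝ) (F : ℝ → ℝ) : avg n w 0 r F = F |r| := by
  simp [avg, mv_zero, (hw.pos _).ne']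

/-- The averages of increasing functions increase with the starting length and the tilt. -/
theorem avg_le {wu wv : ℝ → ℝ} (hu : Tame wu) (hv : Tame wv)
    (hw : ∀ a b, 0 ≤ b → b ≤ a → wu b * wv a ≤ wu a * wv b) {F₁ F₂ : ℝ → ℝ} (h₁ : Measurable F₁)
    (hb₁ : ∃ C, ∀ z, |F₁ z| ≤ C) (h₂ : EvenUp F₂) (hle : ∀ z, F₁ z ≤ F₂ z) {s : ℝ} (hs : 0 ≤ s)
    {r r' : ℝ} (hr : 0 ≤ r') (hrr : r' ≤ r) : avg n wv s r' F₁ ≤ avg n wu s r F₂ := by
  obtain ⟨C₁, hC₁⟩ := hb₁
  obtain ⟨C₂, hC₂⟩ := h₂.bdd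
  rcases hs.eq_or_lt with rfl | hs'
  · rw [avg_zero_step hv, avg_zero_step hu]
    refine (hle _).trans (h₂.mono _ _ ?_)
    rwa [abs_abs, abs_abs, abs_of_nonneg hr, abs_of_nonneg (hr.trans hrr)]
  rw [avg_eq_kern hv hs' r' h₁ hC₁, avg_eq_kern hu hs' r h₂.meas hC₂]
  exact ratio_le (integrable_kern' hv _ _) (integrable_kern' hu _ _) (kern_pos hv _ _)
    (kern_pos hu _ _) (integrable_kern hv _ _ (h₁.comp (measurable_nrm.const_mul s)) fun z => hC₁ _)
    (integrable_kern hv _ _ (h₂.meas.comp (measurable_nrm.const_mul s)) fun z => hC₂ _)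
    (integrable_kern hu _ _ (h₂.meas.comp (measurable_nrm.const_mul s)) fun z => hC₂ _)
    (fun z => hle _)
    (fun a b hab => h₂.mono _ _ (by
      rw [abs_mul, abs_mul, abs_of_nonneg (nrm_nonneg a), abs_of_nonneg (nrm_nonneg b)]
      exact mul_le_mul_of_nonneg_left hab (abs_nonneg s)))
    fun a b hab => kern_cross hu hv hw hs (div_nonneg hr hs)
      (div_le_div_of_nonneg_right hrr hs) hab

theorem Nice.deriv_neg' {u : ℝ → ℝ} (hu : Nice u) (z : ℝ) : deriv u (-z) = -deriv u z := by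
  have h := deriv_comp_neg (f := u) (x := z)
  simp only [hu.even] at h
  linarith

theorem Nice.deriv_zero {u : ℝ → ℝ} (hu : Nice u) : deriv u 0 = 0 := by
  have := hu.deriv_neg' 0
  rw [neg_zero] at this
  linarith

theorem Nice.deriv_nonneg {u : ℝ → ℝ} (hu : Nice u) {z : ℝ} (hz : 0 ≤ z) : 0 ≤ deriv u z :=
  hu.deriv_zero.symm.trans_le (hu.mono hz)

theorem Nice.abs_le {u : ℝ → ℝ} (hu : Nice u) :
    ∃ L : ℝ, 0 ≤ L ∧ (∀ z, |deriv u z| ≤ L) ∧ (∀ a b, |u a - u b| ≤ L * |a - b|) ∧
      ∀ z, |u z| ≤ |u 0| + L * |z| := by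
  obtain ⟨L, hL⟩ := hu.slope_le
  have hL0 : 0 ≤ L := (abs_nonneg _).trans (hL 0)
  have hlip : ∀ a b, |u a - u b| ≤ L * |a - b| := fun a b => by
    have := (lipschitzWith_of_nnnorm_deriv_le (C := L.toNNReal) hu.diff fun z => by
      rw [← NNReal.coe_le_coe, coe_nnnorm, Real.norm_eq_abs, Real.coe_toNNReal L hL0]
      exact hL z).dist_le_mul a b
    rw [Real.dist_eq, Real.dist_eq, Real.coe_toNNReal L hL0] at this
    exact this
  refine ⟨L, hL0, hL, hlip, fun z => ?_⟩
  have h := hlip z 0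
  rw [sub_zero] at h
  linarith [abs_sub_abs_le_abs_sub (u z) (u 0)]

theorem Nice.le_of_abs_le {u : ℝ → ℝ} (hu : Nice u) {a b : ℝ} (h : |a| ≤ |b|) : u a ≤ u b := by
  have habs : ∀ z, u |z| = u z := fun z => by
    rcases abs_choice z with e | e <;> rw [e]
    exact hu.even z
  have hmono : MonotoneOn u (Set.Ici 0) :=
    monotoneOn_of_deriv_nonneg (convex_Ici 0) hu.diff.continuous.continuousOn
      hu.diff.differentiableOn fun z hz => hu.deriv_nonneg (by
        rw [interior_Ici] at hz; exact le_of_lt hz)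
  rw [← habs a, ← habs b]
  exact hmono (abs_nonneg a) (abs_nonneg b) h

theorem Nice.tame {u : ℝ → ℝ} (hu : Nice u) (m : ℝ) : Tame (tilt m u) where
  meas := (measurable_exp.comp ((hu.diff.continuous.measurable).const_mul m))
  pos z := exp_pos _
  bound := by
    obtain ⟨L, hL0, -, -, hL⟩ := hu.abs_le
    refine ⟨exp (|m| * |u 0|), |m| * L, mul_nonneg (abs_nonneg m) hL0, fun z => ?_⟩
    rw [tilt, ← exp_add, exp_le_exp, mul_assoc, ← mul_add]
    calc m * u z ≤ |m| * |u z| := by rw [← abs_mul]; exact le_abs_self _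
      _ ≤ _ := mul_le_mul_of_nonneg_left (hL z) (abs_nonneg m)

theorem tame_one : Tame (fun _ => (1 : ℝ)) :=
  ⟨measurable_const, fun _ => one_pos, 1, 0, le_rfl, fun z => by simp⟩

theorem davg_zero_step {w : ℝ → ℝ} (hw : Tame w) {u : ℝ → ℝ} (hu : Nice u) {r : ℝ} (hr : 0 ≤ r) :
    davg n w 0 r u = deriv u r := by
  rcases hr.eq_or_lt with rfl | hr'
  · simp [davg, slope, mv_zero, hu.deriv_zero]
  have e : ∀ z : Fin (n + 1) → ℝ, udir (mv 0 r z) 0 = 1 := fun z => by
    have h0 : mv 0 r z 0 = r := by simp [mv, axis]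
    rw [udir, h0, show √(normSqF (mv 0 r z)) = |r| from mv_zero r z, abs_of_nonneg hr,
      div_self hr'.ne']
  simp only [davg, slope, e, mul_one, mv_zero, abs_of_nonneg hr, integral_const, probReal_univ,
    one_smul]
  rw [mul_div_assoc, div_self (hw.pos r).ne', mul_one]

/-- The tilted slopes increase with the slope, the starting length and the tilt. -/
theorem davg_le {wu wv : ℝ → ℝ} (hwu : Tame wu) (hwv : Tame wv)
    (hw : ∀ a b, 0 ≤ b → b ≤ a → wu b * wv a ≤ wu a * wv b) {u v : ℝ → ℝ} (hu : Nice u)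
    (hv : Nice v) (hle : ∀ z, 0 ≤ z → deriv v z ≤ deriv u z) {s : ℝ} (hs : 0 ≤ s) {r r' : ℝ}
    (hr : 0 ≤ r') (hrr : r' ≤ r) : davg n wv s r' v ≤ davg n wu s r u := by
  obtain ⟨L, hL⟩ := hu.slope_le
  obtain ⟨M, hM⟩ := hv.slope_le
  rcases hs.eq_or_lt with rfl | hs'
  · rw [davg_zero_step hwv hv hr, davg_zero_step hwu hu (hr.trans hrr)]
    exact (hle _ hr).trans (hu.mono hrr)
  rw [davg_eq_kern hwv hv hs' r', davg_eq_kern hwu hu hs' r]
  have hc' : 0 ≤ r' / s := div_nonneg hr hs
  have hcc : r' / s ≤ r / s := div_le_div_of_nonneg_right hrr hs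
  have hm : ∀ (f : ℝ → ℝ) (c : ℝ), Measurable fun z : Fin (n + 1) → ℝ =>
      deriv f (s * nrm z) * dirMean n (c * nrm z) := fun f c =>
    ((measurable_deriv f).comp (measurable_nrm.const_mul s)).mul
      ((measurable_dirMean n).comp (measurable_nrm.const_mul c))
  have hb : ∀ (f : ℝ → ℝ) (K : ℝ), (∀ z, |deriv f z| ≤ K) → ∀ (c : ℝ) (z : Fin (n + 1) → ℝ),
      |deriv f (s * nrm z) * dirMean n (c * nrm z)| ≤ K := fun f K hK c z => by
    rw [abs_mul]
    exact (mul_le_of_le_one_right (abs_nonneg _) (abs_dirMean_le n _)).trans (hK _)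
  refine ratio_le (integrable_kern' hwv _ _) (integrable_kern' hwu _ _) (kern_pos hwv _ _)
    (kern_pos hwu _ _) (integrable_kern hwv _ _ (hm v _) (hb v M hM _))
    (integrable_kern hwv _ _ (hm u _) (hb u L hL _))
    (integrable_kern hwu _ _ (hm u _) (hb u L hL _)) (fun z => ?_) (fun a b hab => ?_)
    fun a b hab => kern_cross hwu hwv hw hs hc' hcc hab
  · have hz := mul_nonneg hs (nrm_nonneg z)
    exact mul_le_mul (hle _ hz) (monotone_dirMean n (mul_le_mul_of_nonneg_right hcc (nrm_nonneg z)))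
      (dirMean_nonneg n (mul_nonneg hc' (nrm_nonneg z))) (hu.deriv_nonneg hz)
  · exact mul_le_mul (hu.mono (mul_le_mul_of_nonneg_left hab hs))
      (monotone_dirMean n (mul_le_mul_of_nonneg_left hab (hc'.trans hcc)))
      (dirMean_nonneg n (mul_nonneg (hc'.trans hcc) (nrm_nonneg b)))
      (hu.deriv_nonneg (mul_nonneg hs (nrm_nonneg a)))

theorem nrm_mv_neg (s r : ℝ) (z : Fin (n + 1) → ℝ) :
    nrm (mv s (-r) fun i => -z i) = nrm (mv s r z) := by
  rw [← nrm_neg (mv s r z)]
  congr 1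
  funext i
  simp [mv]
  ring

theorem avg_neg {w : ℝ → ℝ} (hw : Measurable w) {F : ℝ → ℝ} (hF : Measurable F) (s r : ℝ) :
    avg n w s (-r) F = avg n w s r F := by
  have h : ∀ f : ℝ → ℝ, Measurable f → ∫ z, f (nrm (mv s (-r) z)) ∂gauss (Fin (n + 1)) =
      ∫ z, f (nrm (mv s r z)) ∂gauss (Fin (n + 1)) := fun f hf => by
    rw [← integral_neg_gauss (f := fun z => f (nrm (mv s (-r) z)))
      (hf.comp (measurable_nrm.comp (measurable_mv _ _)))]
    simp only [nrm_mv_neg]
  simp only [avg]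
  rw [h (fun t => F t * w t) (hF.mul hw), h w hw]

theorem abs_avg_le {w F : ℝ → ℝ} (hw : Tame w) {C : ℝ}
    (hC : ∀ z, |F z| ≤ C) (s r : ℝ) : |avg n w s r F| ≤ C := by
  rw [avg, abs_div, abs_of_pos (integral_pos_step hw s r), div_le_iff₀ (integral_pos_step hw s r),
    ← integral_const_mul]
  refine abs_integral_le_integral_abs.trans (integral_mono_of_nonneg
    (Eventually.of_forall fun g => abs_nonneg _)
    ((integrable_step' hw s r).const_mul C) (Eventually.of_forall fun g => ?_))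
  simp only [abs_mul, abs_of_pos (hw.pos _)]
  exact mul_le_mul_of_nonneg_right (hC _) (hw.pos _).le

/-- A tilted average keeps the class of increasing functions. -/
theorem evenUp_avg {w F : ℝ → ℝ} (hw : Tame w) (hF : EvenUp F) {s : ℝ} (hs : 0 ≤ s) :
    EvenUp fun r => avg n w s r F := by
  have habs : ∀ r, avg n w s |r| F = avg n w s r F := fun r => by
    rcases abs_choice r with h | h <;> rw [h]
    exact avg_neg hw.meas hF.meas s r
  have hmono : ∀ a b : ℝ, 0 ≤ a → a ≤ b → avg n w s a F ≤ avg n w s b F := fun a b ha hab =>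
    avg_le hw hw (fun _ _ _ _ => le_of_eq (mul_comm _ _)) hF.meas hF.bdd hF (fun _ => le_rfl) hs ha
      hab
  obtain ⟨C, hC⟩ := hF.bdd
  refine ⟨?_, ⟨C, fun r => abs_avg_le hw hC s r⟩, fun a b hab => ?_⟩
  · have hm : Monotone fun t => avg n w s (max t 0) F := fun a b hab =>
      hmono _ _ (le_max_right _ _) (max_le_max hab le_rfl)
    convert hm.measurable.comp (measurable_id (α := ℝ)).abs using 1
    funext r
    simp only [Function.comp_apply, id_eq, max_eq_left (abs_nonneg r), habs]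
  · rw [← habs a, ← habs b]
    exact hmono _ _ (abs_nonneg a) hab

/-- Without tilt the average at the origin increases with the step size. -/
theorem avg_mono_step {F : ℝ → ℝ} (hF : EvenUp F) {s t : ℝ} (hs : 0 ≤ s) (hst : s ≤ t) :
    avg n (fun _ => 1) s 0 F ≤ avg n (fun _ => 1) t 0 F := by
  simp only [avg, mul_one, nrm_mv_zero hs, nrm_mv_zero (hs.trans hst)]
  simp only [integral_const, probReal_univ, one_smul, div_one]
  obtain ⟨C, hC⟩ := hF.bdd
  have hi : ∀ k : ℝ, Integrable (fun z : Fin (n + 1) → ℝ => F (k * nrm z))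
      (gauss (Fin (n + 1))) := fun k =>
    Integrable.of_bound (hF.meas.comp (measurable_nrm.const_mul k)).aestronglyMeasurable C
      (Eventually.of_forall fun z => (Real.norm_eq_abs _).trans_le (hC _))
  refine integral_mono (hi s) (hi t) fun z => hF.mono _ _ ?_
  rw [abs_mul, abs_mul, abs_of_nonneg hs, abs_of_nonneg (hs.trans hst)]
  exact mul_le_mul_of_nonneg_right hst (abs_nonneg _)

/-! ### The step -/

theorem hasDerivAt_radial {u : ℝ → ℝ} (hu : Nice u) (s r : ℝ) (z : Fin (n + 1) → ℝ) :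
    HasDerivAt (fun t => u (nrm (mv s t z))) (slope u (mv s r z)) r := by
  rcases eq_or_ne (normSqF (mv s r z)) 0 with h0 | h0
  · have hy : ∀ i, mv s r z i = 0 := fun i => by
      simpa using (sum_eq_zero_iff_of_nonneg fun j _ => sq_nonneg (mv s r z j)).1 h0 i (mem_univ i)
    have e : ∀ t, u (nrm (mv s t z)) = u (t - r) := fun t => by
      have : mv s t z = fun i => (t - r) * axis n i := by
        funext i
        have := hy i
        simp only [mv] at this ⊢
        linarith
      rw [this, nrm_axis]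
      rcases abs_choice (t - r) with h | h <;> rw [h]
      exact hu.even _
    have hs : slope u (mv s r z) = 0 := by simp [slope, udir, hy]
    simp only [e, hs]
    have h1 : HasDerivAt u 0 (r - r) := by
      rw [sub_self]
      simpa [hu.deriv_zero] using (hu.diff 0).hasDerivAt
    have h2 : HasDerivAt (fun t : ℝ => t - r) 1 r := (hasDerivAt_id r).sub_const r
    simpa [Function.comp_def] using HasDerivAt.comp (h := fun t : ℝ => t - r) r h1 h2
  · have hsq : HasDerivAt (fun t => normSqF (mv s t z)) (2 * mv s r z 0) r := by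
      have : ∀ i ∈ (univ : Finset (Fin (n + 1))), HasDerivAt (fun t => mv s t z i ^ 2)
          (2 * mv s r z i * axis n i) r := fun i _ => by
        have h := (((hasDerivAt_id r).mul_const (axis n i)).add_const (s * z i)).fun_pow 2
        simpa [mv] using h
      refine (HasDerivAt.fun_sum this).congr_deriv ?_
      simp [axis, Pi.single_apply]
    refine ((hu.diff (nrm (mv s r z))).hasDerivAt.comp r (hsq.sqrt h0)).congr_deriv ?_
    simp only [slope, udir]
    have : √(normSqF (mv s r z)) ≠ 0 := by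
      rw [Real.sqrt_ne_zero']; exact (normSqF_nonneg _).lt_of_ne' h0
    field_simp

theorem abs_slope_le {u : ℝ → ℝ} {L : ℝ} (hL : ∀ z, |deriv u z| ≤ L) (y : Fin (n + 1) → ℝ) :
    |slope u y| ≤ L := by
  rw [slope, abs_mul]
  exact (mul_le_of_le_one_right (abs_nonneg _) (abs_udir_le y 0)).trans (hL _)

theorem measurable_slope (u : ℝ → ℝ) : Measurable (slope (n := n) u) :=
  ((measurable_deriv u).comp measurable_nrm).mul ((measurable_pi_apply 0).comp measurable_udir)

theorem hasDerivAt_sstep {u : ℝ → ℝ} (hu : Nice u) {m : ℝ} (hm : m ≠ 0) (s r : ℝ) :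
    HasDerivAt (sstep n m s u) (davg n (tilt m u) s r u) r := by
  obtain ⟨L, hL0, hL, hlip, -⟩ := hu.abs_le
  have hw := hu.tame m
  have hd := (hasDerivAt_integral_of_dominated_loc_of_deriv_le (x₀ := r)
    (F := fun y z => tilt m u (nrm (mv s y z)))
    (F' := fun y z => tilt m u (nrm (mv s y z)) * (m * slope u (mv s y z)))
    (bound := fun z => exp (|m| * L) * (|m| * L) * tilt m u (nrm (mv s r z)))
    (μ := gauss (Fin (n + 1))) (Metric.ball_mem_nhds r one_pos)
    (Eventually.of_forall fun y => (integrable_step' hw s y).aestronglyMeasurable)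
    (integrable_step' hw s r)
    ((hw.meas.comp (measurable_nrm.comp (measurable_mv s r))).mul
      (((measurable_slope u).comp (measurable_mv s r)).const_mul m)).aestronglyMeasurable
    (Eventually.of_forall fun z y hy => by
      rw [Metric.mem_ball, Real.dist_eq] at hy
      rw [norm_mul, norm_mul, Real.norm_eq_abs, Real.norm_eq_abs, Real.norm_eq_abs,
        abs_of_pos (hw.pos _)]
      have h1 : tilt m u (nrm (mv s y z)) ≤ exp (|m| * L) * tilt m u (nrm (mv s r z)) := by
        rw [tilt, tilt, ← exp_add, exp_le_exp]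
        have hd : |nrm (mv s y z) - nrm (mv s r z)| ≤ 1 := by
          have hl : ∀ p q : ℝ, nrm (mv s p z) ≤ nrm (mv s q z) + |p - q| := fun p q => by
            have := nrm_add_le (mv s q z) (fun i => (p - q) * axis n i)
            rw [nrm_axis] at this
            refine le_of_eq_of_le ?_ this
            congr 1
            funext i
            simp [mv]
            ring
          have h1 := hl y r
          have h2 := hl r y
          rw [abs_sub_comm] at h2
          rw [abs_le]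
          constructor <;> linarith
        have h2 := (hlip (nrm (mv s y z)) (nrm (mv s r z))).trans (mul_le_of_le_one_right hL0 hd)
        have h3 := le_abs_self (m * (u (nrm (mv s y z)) - u (nrm (mv s r z))))
        rw [abs_mul] at h3
        nlinarith [mul_le_mul_of_nonneg_left h2 (abs_nonneg m)]
      calc tilt m u (nrm (mv s y z)) * (|m| * |slope u (mv s y z)|)
          ≤ exp (|m| * L) * tilt m u (nrm (mv s r z)) * (|m| * L) :=
            mul_le_mul h1 (mul_le_mul_of_nonneg_left (abs_slope_le hL _) (abs_nonneg m))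
              (by positivity) (mul_nonneg (exp_pos _).le (hw.pos _).le)
        _ = _ := by ring)
    ((integrable_step' hw s r).const_mul _)
    (Eventually.of_forall fun z y _ => ((hasDerivAt_radial hu s y z).const_mul m).exp)).2
  have h := (hd.log (integral_pos_step hw s r).ne').const_mul m⁻¹
  refine h.congr_deriv ?_
  unfold davg
  rw [show (fun z => tilt m u (nrm (mv s r z)) * (m * slope (n := n) u (mv s r z))) =
    fun z => m * (slope u (mv s r z) * tilt m u (nrm (mv s r z))) from funext fun z => by ring,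
    integral_const_mul, mul_div_assoc, inv_mul_cancel_left₀ hm]
where
  nrm_add_le (a b : Fin (n + 1) → ℝ) : nrm (fun i => a i + b i) ≤ nrm a + nrm b := by
    have h := norm_add_le (WithLp.toLp 2 a : EuclideanSpace ℝ (Fin (n + 1))) (WithLp.toLp 2 b)
    rw [← WithLp.toLp_add] at h
    simpa [EuclideanSpace.norm_eq, nrm, normSqF, sq_abs] using h

theorem deriv_sstep {u : ℝ → ℝ} (hu : Nice u) {m : ℝ} (hm : m ≠ 0) (s r : ℝ) :
    deriv (sstep n m s u) r = davg n (tilt m u) s r u := (hasDerivAt_sstep hu hm s r).deriv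

theorem sstep_even {u : ℝ → ℝ} (hu : Nice u) (m s r : ℝ) :
    sstep n m s u (-r) = sstep n m s u r := by
  simp only [sstep]
  rw [← integral_neg_gauss (f := fun z => exp (m * u (nrm (mv s (-r) z))))
    (Measurable.exp (((hu.diff.continuous.measurable).comp
      (measurable_nrm.comp (measurable_mv _ _))).const_mul m))]
  simp only [nrm_mv_neg]

theorem nice_sstep {u : ℝ → ℝ} (hu : Nice u) {m : ℝ} (hm : m ≠ 0) {s : ℝ} (hs : 0 ≤ s) :
    Nice (sstep n m s u) where
  diff x := (hasDerivAt_sstep hu hm s x).differentiableAt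
  mono := by
    have hodd : ∀ z, deriv (sstep n m s u) (-z) = -deriv (sstep n m s u) z := fun z => by
      have h := deriv_comp_neg (f := sstep n m s u) (x := z)
      simp only [sstep_even hu] at h
      linarith
    have hmono : ∀ a b : ℝ, 0 ≤ a → a ≤ b →
        deriv (sstep n m s u) a ≤ deriv (sstep n m s u) b := fun a b ha hab => by
      rw [deriv_sstep hu hm, deriv_sstep hu hm]
      exact davg_le (hu.tame m) (hu.tame m) (fun _ _ _ _ => le_of_eq (mul_comm _ _)) hu hu
        (fun _ _ => le_rfl) hs ha hab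
    intro a b hab
    rcases le_total 0 a with ha | ha
    · exact hmono a b ha hab
    rcases le_total 0 b with hb | hb
    · have h0 : deriv (sstep n m s u) 0 = 0 := by
        have := hodd 0
        rw [neg_zero] at this
        linarith
      have h1 := hmono 0 (-a) le_rfl (by linarith)
      have h2 := hmono 0 b le_rfl hb
      rw [hodd] at h1
      linarith
    · have := hmono (-b) (-a) (by linarith) (by linarith)
      rw [hodd, hodd] at this
      linarith
  slope_le := by
    obtain ⟨L, hL⟩ := hu.slope_le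
    refine ⟨L, fun r => ?_⟩
    rw [deriv_sstep hu hm, davg, abs_div, abs_of_pos (integral_pos_step (hu.tame m) s r),
      div_le_iff₀ (integral_pos_step (hu.tame m) s r), ← integral_const_mul]
    refine abs_integral_le_integral_abs.trans (integral_mono_of_nonneg
      (Eventually.of_forall fun g => abs_nonneg _)
      ((integrable_step' (hu.tame m) s r).const_mul L) (Eventually.of_forall fun g => ?_))
    simp only [abs_mul, abs_of_pos ((hu.tame m).pos _)]
    exact mul_le_mul_of_nonneg_right (abs_slope_le hL _) ((hu.tame m).pos _).le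
  even := sstep_even hu m s

theorem evenUp_sq {u : ℝ → ℝ} (hu : Nice u) : EvenUp (fun z => deriv u z ^ 2) where
  meas := (measurable_deriv u).pow_const 2
  bdd := by
    obtain ⟨L, hL⟩ := hu.slope_le
    refine ⟨L ^ 2, fun z => ?_⟩
    rw [abs_of_nonneg (sq_nonneg _), ← sq_abs]
    exact pow_le_pow_left₀ (abs_nonneg _) (hL z) 2
  mono a b h := by
    have habs : ∀ z, deriv u z ^ 2 = deriv u |z| ^ 2 := fun z => by
      rcases abs_choice z with e | e <;> rw [e]
      rw [hu.deriv_neg', neg_sq]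
    rw [habs a, habs b]
    exact pow_le_pow_left₀ (hu.deriv_nonneg (abs_nonneg a)) (hu.mono h) 2

theorem deriv_le_of_dec {u v : ℝ → ℝ} (hu : Nice u) (hv : Nice v)
    (h : Dec fun z => v z - u z) {z : ℝ} (hz : 0 ≤ z) : deriv v z ≤ deriv u z := by
  rcases hz.eq_or_lt with rfl | hz'
  · rw [hu.deriv_zero, hv.deriv_zero]
  have hanti : AntitoneOn (fun z => v z - u z) (Set.Ici 0) := fun a ha b hb hab =>
    h b a (by rw [abs_of_nonneg ha, abs_of_nonneg hb]; exact hab)
  have hd := ((hv.diff z).hasDerivAt.sub (hu.diff z).hasDerivAt).hasDerivWithinAt (s := Set.Ici 0)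
  have hacc : AccPt z (𝓟 (Set.Ici (0 : ℝ))) :=
    uniqueDiffWithinAt_iff_accPt.1 (uniqueDiffOn_Ici 0 z hz)
  exact sub_nonpos.1 (hd.nonpos_of_antitoneOn hacc hanti)

theorem dec_of_deriv_le {u v : ℝ → ℝ} (hu : Nice u) (hv : Nice v)
    (h : ∀ z, 0 ≤ z → deriv v z ≤ deriv u z) : Dec fun z => v z - u z := by
  have hanti : AntitoneOn (fun z => v z - u z) (Set.Ici 0) := by
    refine antitoneOn_of_deriv_nonpos (convex_Ici 0)
      (hv.diff.continuous.sub hu.diff.continuous).continuousOn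
      (hv.diff.sub hu.diff).differentiableOn fun z hz => ?_
    rw [interior_Ici] at hz
    rw [deriv_fun_sub (hv.diff z) (hu.diff z), sub_nonpos]
    exact h z (le_of_lt hz)
  intro a b hab
  have habs : ∀ z, v z - u z = v |z| - u |z| := fun z => by
    rcases abs_choice z with e | e <;> rw [e]
    rw [hu.even, hv.even]
  simp only [habs a, habs b]
  exact hanti (abs_nonneg b) (abs_nonneg a) hab

/-- The tilts of two functions ordered by slopes. -/
theorem tilt_cross {u v : ℝ → ℝ} {m k : ℝ} (hr : Dec fun z => k * v z - m * u z) {a b : ℝ}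
    (hb : 0 ≤ b) (hab : b ≤ a) :
    tilt m u b * tilt k v a ≤ tilt m u a * tilt k v b := by
  simp only [tilt, ← exp_add, exp_le_exp]
  have := hr a b (by rwa [abs_of_nonneg hb, abs_of_nonneg (hb.trans hab)])
  linarith

/-- A step keeps the order by slopes. -/
theorem dec_sstep {u v : ℝ → ℝ} (hu : Nice u) (hv : Nice v) (h : Dec fun z => v z - u z)
    {m : ℝ} (hm : 0 < m) {s : ℝ} (hs : 0 ≤ s) :
    Dec fun z => sstep n m s v z - sstep n m s u z := by
  refine dec_of_deriv_le (nice_sstep hu hm.ne' hs) (nice_sstep hv hm.ne' hs) fun z hz => ?_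
  rw [deriv_sstep hu hm.ne', deriv_sstep hv hm.ne']
  refine davg_le (hu.tame m) (hv.tame m) (fun a b hb hab => tilt_cross (fun p q hpq => ?_) hb hab)
    hu hv (fun z hz => deriv_le_of_dec hu hv h hz) hs hz le_rfl
  simp only [← mul_sub]
  exact mul_le_mul_of_nonneg_left (h p q hpq) hm.le

/-- A smaller exponent gives a smaller slope. -/
theorem dec_exponent {u : ℝ → ℝ} (hu : Nice u) {k m : ℝ} (hk : 0 < k) (hkm : k ≤ m) {s : ℝ}
    (hs : 0 ≤ s) : Dec fun z => sstep n k s u z - sstep n m s u z := by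
  have hm := hk.trans_le hkm
  refine dec_of_deriv_le (nice_sstep hu hm.ne' hs) (nice_sstep hu hk.ne' hs) fun z hz => ?_
  rw [deriv_sstep hu hm.ne', deriv_sstep hu hk.ne']
  refine davg_le (hu.tame m) (hu.tame k) (fun a b hb hab => tilt_cross (fun p q hpq => ?_) hb hab)
    hu hu (fun z _ => le_rfl) hs hz le_rfl
  simp only [← sub_mul]
  exact mul_le_mul_of_nonpos_left (hu.le_of_abs_le hpq) (sub_nonpos.2 hkm)

/-- Two steps with the same exponent compose. -/
theorem sstep_sstep {u : ℝ → ℝ} (hu : Nice u) {m : ℝ} (hm : m ≠ 0) (a b r : ℝ) :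
    sstep n m a (sstep n m b u) r = sstep n m (√(a ^ 2 + b ^ 2)) u r := by
  obtain ⟨L, hL0, -, -, hL⟩ := hu.abs_le
  have hf : Measurable fun t => exp (m * u t) := (hu.tame m).meas
  have e : ∀ y : Fin (n + 1) → ℝ, exp (m * sstep n m b u (nrm y)) =
      ∫ z', exp (m * u (nrm fun i => y i + b * z' i)) ∂gauss (Fin (n + 1)) := fun y => by
    rw [integral_radial y b hf, sstep, mul_inv_cancel_left₀ hm, exp_log]
    exact integral_pos_step (hu.tame m) b _
  rw [sstep, sstep]
  congr 2
  simp only [e]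
  have h := integral_conv (n := n) a b
    (f := fun v => exp (m * u (nrm fun i => r * axis n i + v i)))
    (hf.comp (measurable_nrm.comp (by fun_prop))) ?_
  · refine Eq.trans ?_ (h.trans ?_)
    · exact integral_congr_ae (Eventually.of_forall fun z => integral_congr_ae
        (Eventually.of_forall fun z' => by
          simp only [mv, add_assoc]))
    · rfl
  refine (((integrable_exp_sum (|m| * L * |a|)).mul_prod
    (integrable_exp_sum (|m| * L * |b|))).const_mul (exp (|m| * (|u 0| + L * |r|)))).mono'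
    ((hf.comp (measurable_nrm.comp (by fun_prop))).aestronglyMeasurable)
    (Eventually.of_forall fun p => ?_)
  simp only [Real.norm_eq_abs, abs_exp, ← exp_add, exp_le_exp]
  refine (le_abs_self _).trans ?_
  rw [abs_mul]
  have h1 : nrm (fun i => r * axis n i + (a * p.1 i + b * p.2 i)) ≤
      |r| + (|a| * ∑ i, |p.1 i| + |b| * ∑ i, |p.2 i|) := by
    refine (nrm_le_sum _).trans ?_
    calc ∑ i, |r * axis n i + (a * p.1 i + b * p.2 i)|
        ≤ ∑ i, (|r| * |axis n i| + (|a| * |p.1 i| + |b| * |p.2 i|)) :=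
          sum_le_sum fun i _ => by
            refine (abs_add_le _ _).trans (add_le_add (abs_mul _ _).le ?_)
            refine (abs_add_le _ _).trans_eq ?_
            rw [abs_mul, abs_mul]
      _ = _ := by
          rw [sum_add_distrib, sum_add_distrib, ← mul_sum, ← mul_sum, ← mul_sum]
          simp [axis, Pi.single_apply, apply_ite]
  have h2 := hL (nrm fun i => r * axis n i + (a * p.1 i + b * p.2 i))
  rw [abs_of_nonneg (nrm_nonneg _)] at h2
  refine le_trans (mul_le_mul_of_nonneg_left (h2.trans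
    (add_le_add le_rfl (mul_le_mul_of_nonneg_left h1 hL0))) (abs_nonneg m)) (le_of_eq ?_)
  ring

end Vale.Agent.P157.RadG
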