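import Vale.Agent.P157.ParisiG.RadStep

/-!
The radial recursion along a variance path: the mean squared slopes decrease when a variance above
their level grows and increase under a common shift of the variances.
-/

namespace Vale.Agent.P157.RadG

open MeasureTheory ProbabilityTheory Real

/-- The profile at level `K - d`. -/
noncomputable def profUp (n K : ℕ) (x a : ℕ → ℝ) (φ : ℝ → ℝ) : ℕ → ℝ → ℝ
  | 0 => φ
  | d + 1 => sstep n (x (K - d)) (a (K - d)) (profUp n K x a φ d)

/-- The profile at level `l`. -/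
noncomputable def prof (n K : ℕ) (x a : ℕ → ℝ) (φ : ℝ → ℝ) (l : ℕ) : ℝ → ℝ :=
  profUp n K x a φ (K - l)

/-- The mean of a radial function of the state at a level. -/
noncomputable def pmean (n : ℕ) (x a : ℕ → ℝ) (U : ℕ → ℝ → ℝ) : ℕ → (ℝ → ℝ) → ℝ
  | 0, F => avg n (fun _ => 1) (a 0) 0 F
  | l + 1, F => pmean n x a U l fun r => avg n (tilt (x (l + 1)) (U (l + 1))) (a (l + 1)) r F

/-- The mean squared slope at a level. -/
noncomputable def qv (n K : ℕ) (x a : ℕ → ℝ) (φ : ℝ → ℝ) (j : ℕ) : ℝ :=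
  pmean n x a (prof n K x a φ) j fun r => deriv (prof n K x a φ j) r ^ 2

/-- The amplitudes of a variance path. -/
noncomputable def incr (h : ℕ → ℝ) (l : ℕ) : ℝ :=
  if l = 0 then √(h 0) else √(h l - h (l - 1))

variable {n K : ℕ} {x a a' : ℕ → ℝ} {φ : ℝ → ℝ}

theorem incr_nonneg (h : ℕ → ℝ) (l : ℕ) : 0 ≤ incr h l := by
  unfold incr; split <;> exact sqrt_nonneg _

theorem prof_top : prof n K x a φ K = φ := by simp [prof, profUp]

theorem prof_succ {l : ℕ} (hl : l < K) :
    prof n K x a φ l = sstep n (x (l + 1)) (a (l + 1)) (prof n K x a φ (l + 1)) := by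
  unfold prof
  rw [show K - l = (K - (l + 1)) + 1 by omega, profUp, show K - (K - (l + 1)) = l + 1 by omega]

theorem nice_prof (hφ : Nice φ) (hx : ∀ l, 1 ≤ l → l ≤ K → 0 < x l) (ha : ∀ l, 0 ≤ a l) {l : ℕ}
    (hl : l ≤ K) : Nice (prof n K x a φ l) := by
  refine Nat.decreasingInduction (motive := fun l _ => Nice (prof n K x a φ l))
    (fun k hk ih => ?_) (by rw [prof_top]; exact hφ) hl
  rw [prof_succ hk]
  exact nice_sstep ih (hx _ (by omega) (by omega)).ne' (ha _)

theorem prof_congr {p : ℕ} (hp : p ≤ K) (h : ∀ l, p < l → l ≤ K → a' l = a l) :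
    prof n K x a' φ p = prof n K x a φ p := by
  revert h
  refine Nat.decreasingInduction
    (motive := fun p _ => (∀ l, p < l → l ≤ K → a' l = a l) →
      prof n K x a' φ p = prof n K x a φ p)
    (fun k hk ih h => ?_) (fun _ => by rw [prof_top, prof_top]) hp
  rw [prof_succ hk, prof_succ hk, h (k + 1) (by omega) hk,
    ih fun l hl hlK => h l (by omega) hlK]

theorem evenUp_pmean_step {U : ℕ → ℝ → ℝ} {l : ℕ} {F : ℝ → ℝ} (hU : Nice (U l)) (ha : 0 ≤ a l)
    (hF : EvenUp F) : EvenUp fun r => avg n (tilt (x l) (U l)) (a l) r F :=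
  evenUp_avg (hU.tame _) hF ha

/-- Means compare through the root amplitude, the slopes and the function. -/
theorem pmean_mono {U U' : ℕ → ℝ → ℝ} (j : ℕ) (hx : ∀ l, 1 ≤ l → l ≤ j → 0 ≤ x l)
    (ha : ∀ l, 0 ≤ a l) (h0 : 0 ≤ a' 0) (h0' : a' 0 ≤ a 0)
    (heq : ∀ l, 1 ≤ l → l ≤ j → a' l = a l) (hU : ∀ l, 1 ≤ l → l ≤ j → Nice (U l))
    (hU' : ∀ l, 1 ≤ l → l ≤ j → Nice (U' l))
    (hdec : ∀ l, 1 ≤ l → l ≤ j → Dec fun z => U' l z - U l z) {F F' : ℝ → ℝ} (hF : EvenUp F)
    (hF' : EvenUp F') (hle : ∀ z, F' z ≤ F z) :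
    pmean n x a' U' j F' ≤ pmean n x a U j F := by
  induction j generalizing F F' with
  | zero =>
    simp only [pmean]
    exact (avg_le tame_one tame_one (fun _ _ _ _ => le_rfl) hF'.meas hF'.bdd hF hle h0 le_rfl
      le_rfl).trans (avg_mono_step hF h0 h0')
  | succ j ih =>
    simp only [pmean]
    have e := heq (j + 1) (by omega) le_rfl
    have hN := hU (j + 1) (by omega) le_rfl
    have hN' := hU' (j + 1) (by omega) le_rfl
    have hA : EvenUp fun r => avg n (tilt (x (j + 1)) (U (j + 1))) (a (j + 1)) r F :=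
      evenUp_pmean_step hN (ha _) hF
    have hA' : EvenUp fun r => avg n (tilt (x (j + 1)) (U' (j + 1))) (a (j + 1)) r F' :=
      evenUp_pmean_step hN' (ha _) hF'
    rw [e]
    refine ih (fun l h1 h2 => hx l h1 (by omega)) (fun l h1 h2 => heq l h1 (by omega))
      (fun l h1 h2 => hU l h1 (by omega)) (fun l h1 h2 => hU' l h1 (by omega))
      (fun l h1 h2 => hdec l h1 (by omega)) hA hA' fun r => ?_
    rw [← hA.abs r, ← hA'.abs r]
    refine avg_le (hN.tame _) (hN'.tame _)
      (fun p q hq hqp => tilt_cross (fun c d hcd => ?_) hq hqp) hF'.meas hF'.bdd hF hle (ha _)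
      (abs_nonneg r) le_rfl
    simp only [← mul_sub]
    exact mul_le_mul_of_nonneg_left (hdec (j + 1) (by omega) le_rfl c d hcd)
      (hx (j + 1) (by omega) le_rfl)

/-- The order by slopes propagates to lower levels. -/
theorem dec_prof (hφ : Nice φ) (hx : ∀ l, 1 ≤ l → l ≤ K → 0 < x l) (ha : ∀ l, 0 ≤ a l)
    (ha' : ∀ l, 0 ≤ a' l) {p : ℕ} (hp : p ≤ K) (heq : ∀ l, 1 ≤ l → l ≤ p → a' l = a l)
    (h : Dec fun z => prof n K x a' φ p z - prof n K x a φ p z) {l : ℕ} (hl : l ≤ p) :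
    Dec fun z => prof n K x a' φ l z - prof n K x a φ l z := by
  refine Nat.decreasingInduction
    (motive := fun l _ => Dec fun z => prof n K x a' φ l z - prof n K x a φ l z)
    (fun k hk ih => ?_) h hl
  rw [prof_succ (by omega : k < K), prof_succ (by omega : k < K), heq (k + 1) (by omega) (by omega)]
  exact dec_sstep (nice_prof hφ hx ha (by omega)) (nice_prof hφ hx ha' (by omega)) ih
    (hx _ (by omega) (by omega)) (ha _)

/-- A mean squared slope decreases with the root amplitude and the slopes below its level. -/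
theorem qv_mono (hφ : Nice φ) (hx : ∀ l, 1 ≤ l → l ≤ K → 0 < x l) (ha : ∀ l, 0 ≤ a l)
    (ha' : ∀ l, 0 ≤ a' l) {j p : ℕ} (hjp : j ≤ p) (hp : p ≤ K) (h0 : a' 0 ≤ a 0)
    (heq : ∀ l, 1 ≤ l → l ≤ p → a' l = a l)
    (h : Dec fun z => prof n K x a' φ p z - prof n K x a φ p z) :
    qv n K x a' φ j ≤ qv n K x a φ j := by
  have hd : ∀ l, l ≤ j → Dec fun z => prof n K x a' φ l z - prof n K x a φ l z := fun l hl =>
    dec_prof hφ hx ha ha' hp heq h (hl.trans hjp)
  have hN : ∀ l, l ≤ j → Nice (prof n K x a φ l) := fun l hl =>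
    nice_prof hφ hx ha (by omega)
  have hN' : ∀ l, l ≤ j → Nice (prof n K x a' φ l) := fun l hl =>
    nice_prof hφ hx ha' (by omega)
  refine pmean_mono j (fun l h1 h2 => (hx l h1 (by omega)).le) ha (ha' 0) h0
    (fun l h1 h2 => heq l h1 (by omega)) (fun l _ h2 => hN l h2) (fun l _ h2 => hN' l h2)
    (fun l _ h2 => hd l h2) (evenUp_sq (hN j le_rfl)) (evenUp_sq (hN' j le_rfl)) fun z => ?_
  rw [← (evenUp_sq (hN' j le_rfl)).abs z, ← (evenUp_sq (hN j le_rfl)).abs z]
  exact pow_le_pow_left₀ ((hN' j le_rfl).deriv_nonneg (abs_nonneg z))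
    (deriv_le_of_dec (hN j le_rfl) (hN' j le_rfl) (hd j le_rfl) (abs_nonneg z)) 2

/-- A common shift increases every mean squared slope. -/
theorem qv_shift (hφ : Nice φ) (hx : ∀ l, 1 ≤ l → l ≤ K → 0 < x l) {h : ℕ → ℝ} {c : ℝ}
    (hc : 0 ≤ c) {j : ℕ} (hj : j ≤ K) :
    qv n K x (incr h) φ j ≤ qv n K x (incr fun l => h l + c) φ j := by
  have e : ∀ l, 1 ≤ l → incr h l = incr (fun l => h l + c) l := fun l hl => by
    simp only [incr, if_neg (show l ≠ 0 by omega), add_sub_add_right_eq_sub]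
  refine qv_mono hφ hx (incr_nonneg _) (incr_nonneg _) le_rfl hj ?_ (fun l hl _ => e l hl) ?_
  · simp only [incr, if_true]
    exact sqrt_le_sqrt (by linarith)
  · rw [prof_congr hj fun l hl _ => e l (by omega)]
    intro p q _
    simp

/-- A larger variance above a level decreases its mean squared slope. -/
theorem qv_single (hφ : Nice φ) (hx : ∀ l, 1 ≤ l → l ≤ K → 0 < x l)
    (hxm : ∀ l, 1 ≤ l → l < K → x l ≤ x (l + 1)) (hx1 : x K ≤ 1)
    (htop : ∀ s, 0 ≤ s → ∃ c, ∀ r, sstep n 1 s φ r = φ r + c) {h h' : ℕ → ℝ} {j l : ℕ}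
    (hjl : j < l) (hl : l ≤ K) {e : ℝ} (he : 0 ≤ e) (hh : h' l = h l + e)
    (hoth : ∀ i, i ≤ K → i ≠ l → h' i = h i) (hlo : h (l - 1) ≤ h l)
    (hhi : l < K → h l + e ≤ h (l + 1)) :
    qv n K x (incr h') φ j ≤ qv n K x (incr h) φ j := by
  obtain ⟨p, rfl⟩ : ∃ p, l = p + 1 := ⟨l - 1, by omega⟩
  simp only [Nat.add_sub_cancel] at hlo
  have hsame : ∀ i, i ≤ K → i ≠ p + 1 → i ≠ p + 2 → incr h' i = incr h i := fun i h0 h1 h2 => by
    rcases Nat.eq_zero_or_pos i with rfl | hi
    · simp [incr, hoth 0 h0 h1]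
    · simp only [incr, if_neg (show i ≠ 0 by omega), hoth i h0 h1,
        hoth (i - 1) (by omega) (by omega)]
  have hsplit : incr h' (p + 1) = √(incr h (p + 1) ^ 2 + √e ^ 2) := by
    simp only [incr, if_neg (show p + 1 ≠ 0 by omega), Nat.add_sub_cancel, hh,
      hoth p (by omega) (by omega),
      sq_sqrt he, sq_sqrt (sub_nonneg.2 hlo)]
    congr 1
    ring
  refine qv_mono hφ hx (incr_nonneg _) (incr_nonneg _) (p := p) (by omega) (by omega)
    (le_of_eq (hsame 0 (Nat.zero_le K) (by omega) (by omega)))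
    (fun i _ h2 => hsame i (by omega) (by omega) (by omega)) ?_
  have hxl := hx (p + 1) (by omega) hl
  rw [prof_succ (by omega : p < K), prof_succ (by omega : p < K), hsplit]
  rcases eq_or_lt_of_le hl with hK | hK
  · rw [hK, prof_top, prof_top]
    have e1 : sstep n (x K) (√(incr h K ^ 2 + √e ^ 2)) φ =
        sstep n (x K) (incr h K) (sstep n (x K) (√e) φ) :=
      funext fun r => (sstep_sstep hφ (hx K (by omega) le_rfl).ne' _ _ r).symm
    rw [e1]
    have hxK := hx K (by omega) le_rfl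
    refine dec_sstep hφ (nice_sstep hφ hxK.ne' (sqrt_nonneg e)) ?_ hxK (incr_nonneg _ _)
    obtain ⟨c, hc⟩ := htop (√e) (sqrt_nonneg e)
    intro p q hpq
    have := dec_exponent hφ (n := n) hxK hx1 (sqrt_nonneg e) p q hpq
    simp only [hc] at this ⊢
    linarith
  · rw [prof_succ hK, prof_succ hK, show p + 1 + 1 = p + 2 by omega,
      prof_congr (show p + 2 ≤ K by omega) fun i h1 h2 => hsame i h2 (by omega) (by omega)]
    set V := prof n K x (incr h) φ (p + 2)
    have hV : Nice V := nice_prof hφ hx (incr_nonneg _) (by omega)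
    have hx2 := hx (p + 2) (by omega) (by omega)
    set W := sstep n (x (p + 2)) (incr h' (p + 2)) V with hWdef
    have hW : Nice W := nice_sstep hV hx2.ne' (incr_nonneg _ _)
    have hsq : √(√e ^ 2 + incr h' (p + 2) ^ 2) = incr h (p + 2) := by
      have hhi' := hhi hK
      rw [show p + 1 + 1 = p + 2 by omega] at hhi'
      simp only [incr, if_neg (show p + 2 ≠ 0 by omega), show p + 2 - 1 = p + 1 by omega,
        hh, hoth (p + 2) (by omega) (by omega), sq_sqrt he,
        sq_sqrt (show 0 ≤ h (p + 2) - (h (p + 1) + e) by linarith)]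
      congr 1
      ring
    have e1 : sstep n (x (p + 2)) (incr h (p + 2)) V = sstep n (x (p + 2)) (√e) W :=
      funext fun r => by rw [hWdef, sstep_sstep hV hx2.ne', hsq]
    have e2 : sstep n (x (p + 1)) (√(incr h (p + 1) ^ 2 + √e ^ 2)) W =
        sstep n (x (p + 1)) (incr h (p + 1)) (sstep n (x (p + 1)) (√e) W) :=
      funext fun r => (sstep_sstep hW hxl.ne' _ _ r).symm
    rw [e1, e2]
    exact dec_sstep (nice_sstep hW hx2.ne' (sqrt_nonneg e)) (nice_sstep hW hxl.ne' (sqrt_nonneg e))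
      (dec_exponent hW hxl (hxm _ (by omega) hK) (sqrt_nonneg e)) hxl (incr_nonneg _ _)

end Vale.Agent.P157.RadG
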