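import Mathlib

/-!
Concavity from first order data: a gradient whose coordinates increase in the other coordinates
and decrease under a common shift of all coordinates belongs to a concave function.
-/

namespace Vale.Agent.P157.ConcaveCore

open Set Filter Topology

variable {n : ℕ}

/-- The directional derivative read off a gradient field. -/
def pair (g u : Fin n → ℝ) : ℝ := ∑ j, g j * u j

/-- The derivative of `ψ` along every line through a point of `Ω` is given by `G`. -/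
def GradLine (Ω : Set (Fin n → ℝ)) (ψ : (Fin n → ℝ) → ℝ) (G : (Fin n → ℝ) → Fin n → ℝ) : Prop :=
  ∀ x ∈ Ω, ∀ v : Fin n → ℝ, HasDerivAt (fun t : ℝ => ψ (x + t • v)) (pair (G x) v) 0

/-- The indicator vector of the coordinates satisfying a condition. -/
def indic (S : Finset (Fin n)) : Fin n → ℝ := fun j => if j ∈ S then 1 else 0

theorem indic_eq_sum (S : Finset (Fin n)) : indic S = ∑ j ∈ S, Pi.single j (1 : ℝ) := by
  funext i
  simp [indic, Pi.single_apply]

/-- Local antitonicity of the derivative in direction `u` along direction `w`. -/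
def Anti (Ω : Set (Fin n → ℝ)) (G : (Fin n → ℝ) → Fin n → ℝ) (u w : Fin n → ℝ) : Prop :=
  ∀ x ∈ Ω, ∃ ε > 0, ∀ y, ‖y - x‖ < ε → ∀ a ∈ Icc 0 ε,
    y + a • w ∈ Ω ∧ pair (G (y + a • w)) u ≤ pair (G y) u

section

variable {Ω : Set (Fin n → ℝ)} {G : (Fin n → ℝ) → Fin n → ℝ}

theorem small_bound {c ε a M : ℝ} {v : Fin n → ℝ} (_hε : 0 ≤ ε) (hc : c = ε / M) (hM : 0 < M)
    (hv : ‖v‖ + 1 ≤ M) (ha : a ∈ Icc 0 c) : ‖a • v‖ + a ≤ ε := by
  rw [norm_smul, Real.norm_eq_abs, abs_of_nonneg ha.1]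
  have hcM : c * M = ε := by rw [hc]; field_simp
  have h1 : a * (‖v‖ + 1) ≤ c * M :=
    mul_le_mul ha.2 hv (by positivity) (ha.1.trans ha.2)
  nlinarith

theorem exists_ball (hΩ : IsOpen Ω) {x : Fin n → ℝ} (hx : x ∈ Ω) :
    ∃ ε > 0, ∀ y, ‖y - x‖ < ε → y ∈ Ω := by
  obtain ⟨ε, hε, h⟩ := Metric.isOpen_iff.1 hΩ x hx
  exact ⟨ε, hε, fun y hy => h (by rwa [Metric.mem_ball, dist_eq_norm])⟩

theorem anti_zero_right (hΩ : IsOpen Ω) (u : Fin n → ℝ) : Anti Ω G u 0 := fun x hx => by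
  obtain ⟨ε, hε, h⟩ := exists_ball hΩ hx
  exact ⟨ε, hε, fun y hy a _ => by simpa using h y hy⟩

theorem anti_zero_left (hΩ : IsOpen Ω) (w : Fin n → ℝ) : Anti Ω G 0 w := fun x hx => by
  obtain ⟨ε, hε, h⟩ := exists_ball hΩ hx
  refine ⟨ε / (2 * (‖w‖ + 1)), by positivity, fun y hy a ha => ?_⟩
  have h1 : ‖a • w‖ + a ≤ ε / 2 :=
    small_bound (M := ‖w‖ + 1) (by positivity) (by rw [div_div, mul_comm]) (by positivity) le_rfl ha
  have h2 : ε / (2 * (‖w‖ + 1)) ≤ ε / 2 :=
    div_le_div_of_nonneg_left hε.le (by norm_num) (by linarith [norm_nonneg w])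
  refine ⟨h _ ?_, by simp [pair]⟩
  calc ‖y + a • w - x‖ = ‖(y - x) + a • w‖ := by congr 1; abel
    _ ≤ ‖y - x‖ + ‖a • w‖ := norm_add_le _ _
    _ < ε := by linarith [ha.1]

theorem anti_add_left {u₁ u₂ w : Fin n → ℝ} (h₁ : Anti Ω G u₁ w) (h₂ : Anti Ω G u₂ w) :
    Anti Ω G (u₁ + u₂) w := fun x hx => by
  obtain ⟨ε₁, hε₁, k₁⟩ := h₁ x hx
  obtain ⟨ε₂, hε₂, k₂⟩ := h₂ x hx
  refine ⟨min ε₁ ε₂, lt_min hε₁ hε₂, fun y hy a ha => ?_⟩
  obtain ⟨m₁, l₁⟩ := k₁ y (hy.trans_le (min_le_left _ _)) a ⟨ha.1, ha.2.trans (min_le_left _ _)⟩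
  obtain ⟨-, l₂⟩ := k₂ y (hy.trans_le (min_le_right _ _)) a ⟨ha.1, ha.2.trans (min_le_right _ _)⟩
  refine ⟨m₁, ?_⟩
  simp only [pair, Pi.add_apply, mul_add, Finset.sum_add_distrib] at l₁ l₂ ⊢
  linarith

theorem anti_smul_left {u w : Fin n → ℝ} {c : ℝ} (hc : 0 ≤ c) (h : Anti Ω G u w) :
    Anti Ω G (c • u) w := fun x hx => by
  obtain ⟨ε, hε, k⟩ := h x hx
  refine ⟨ε, hε, fun y hy a ha => ⟨(k y hy a ha).1, ?_⟩⟩
  have e : ∀ g, pair g (c • u) = c * pair g u := fun g => by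
    simp [pair, Finset.mul_sum, mul_left_comm]
  rw [e, e]
  exact mul_le_mul_of_nonneg_left (k y hy a ha).2 hc

theorem anti_smul_right {u w : Fin n → ℝ} {c : ℝ} (hc : 0 ≤ c) (h : Anti Ω G u w) :
    Anti Ω G u (c • w) := fun x hx => by
  obtain ⟨ε, hε, k⟩ := h x hx
  refine ⟨ε / (c + 1), by positivity, fun y hy a ha => ?_⟩
  have h1 : ε / (c + 1) ≤ ε := div_le_self hε.le (by linarith)
  have h2 : a * c ≤ ε := by
    have := mul_le_mul ha.2 (show c ≤ c + 1 by linarith) hc (by positivity)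
    rwa [div_mul_cancel₀ _ (by linarith : c + 1 ≠ 0)] at this
  rw [smul_smul]
  exact k y (hy.trans_le h1) (a * c) ⟨mul_nonneg ha.1 hc, h2⟩

theorem anti_add_right {u w₁ w₂ : Fin n → ℝ} (h₁ : Anti Ω G u w₁) (h₂ : Anti Ω G u w₂) :
    Anti Ω G u (w₁ + w₂) := fun x hx => by
  obtain ⟨ε₁, hε₁, k₁⟩ := h₁ x hx
  obtain ⟨ε₂, hε₂, k₂⟩ := h₂ x hx
  set m := min ε₁ ε₂ with hmdef
  have hm : 0 < m := lt_min hε₁ hε₂
  refine ⟨m / (2 * (‖w₁‖ + 1)), by positivity, fun y hy a ha => ?_⟩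
  have h1 : ‖a • w₁‖ + a ≤ m / 2 :=
    small_bound (M := ‖w₁‖ + 1) (by positivity) (by rw [div_div, mul_comm]) (by positivity)
      le_rfl ha
  have h2 : m / (2 * (‖w₁‖ + 1)) ≤ m / 2 :=
    div_le_div_of_nonneg_left hm.le (by norm_num) (by linarith [norm_nonneg w₁])
  have hm₁ : m ≤ ε₁ := min_le_left _ _
  have hm₂ : m ≤ ε₂ := min_le_right _ _
  obtain ⟨-, l₁⟩ := k₁ y (by linarith) a ⟨ha.1, by linarith [norm_nonneg (a • w₁)]⟩
  have hy₂ : ‖y + a • w₁ - x‖ < ε₂ := by
    calc ‖y + a • w₁ - x‖ = ‖(y - x) + a • w₁‖ := by congr 1; abel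
      _ ≤ ‖y - x‖ + ‖a • w₁‖ := norm_add_le _ _
      _ < ε₂ := by linarith [ha.1]
  obtain ⟨n₂, l₂⟩ := k₂ _ hy₂ a ⟨ha.1, by linarith [norm_nonneg (a • w₁)]⟩
  rw [smul_add, ← add_assoc]
  exact ⟨n₂, l₂.trans l₁⟩

theorem anti_sum_left {ι : Type*} (hΩ : IsOpen Ω) (s : Finset ι) (u : ι → Fin n → ℝ)
    (w : Fin n → ℝ) (h : ∀ i ∈ s, Anti Ω G (u i) w) : Anti Ω G (∑ i ∈ s, u i) w := by
  classical
  induction s using Finset.induction_on with
  | empty => simpa using anti_zero_left hΩ w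
  | insert i s hi ih =>
    rw [Finset.sum_insert hi]
    exact anti_add_left (h i (Finset.mem_insert_self i s))
      (ih fun k hk => h k (Finset.mem_insert_of_mem hk))

theorem anti_sum_right {ι : Type*} (hΩ : IsOpen Ω) (s : Finset ι) (u : Fin n → ℝ)
    (w : ι → Fin n → ℝ) (h : ∀ i ∈ s, Anti Ω G u (w i)) : Anti Ω G u (∑ i ∈ s, w i) := by
  classical
  induction s using Finset.induction_on with
  | empty => simpa using anti_zero_right hΩ u
  | insert i s hi ih =>
    rw [Finset.sum_insert hi]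
    exact anti_add_right (h i (Finset.mem_insert_self i s))
      (ih fun k hk => h k (Finset.mem_insert_of_mem hk))

theorem anti_neg_neg {u w : Fin n → ℝ} (h : Anti Ω G u w) (hΩ : IsOpen Ω) :
    Anti Ω G (-u) (-w) := fun x hx => by
  obtain ⟨ε, hε, k⟩ := h x hx
  obtain ⟨δ, hδ, kδ⟩ := exists_ball hΩ hx
  set m := min ε δ with hmdef
  have hm : 0 < m := lt_min hε hδ
  refine ⟨m / (2 * (‖w‖ + 1)), by positivity, fun y hy a ha => ?_⟩
  have h1 : ‖a • w‖ + a ≤ m / 2 :=
    small_bound (M := ‖w‖ + 1) (by positivity) (by rw [div_div, mul_comm]) (by positivity) le_rfl ha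
  have h2 : m / (2 * (‖w‖ + 1)) ≤ m / 2 :=
    div_le_div_of_nonneg_left hm.le (by norm_num) (by linarith [norm_nonneg w])
  have hy₂ : ‖y + a • -w - x‖ < m := by
    calc ‖y + a • -w - x‖ = ‖(y - x) + a • -w‖ := by congr 1; abel
      _ ≤ ‖y - x‖ + ‖a • -w‖ := norm_add_le _ _
      _ < m := by rw [smul_neg, norm_neg]; linarith [ha.1]
  obtain ⟨-, l⟩ := k _ (hy₂.trans_le (min_le_left _ _)) a
    ⟨ha.1, by linarith [norm_nonneg (a • w), min_le_left ε δ]⟩
  rw [show y + a • -w + a • w = y by simp] at l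
  refine ⟨kδ _ (hy₂.trans_le (min_le_right _ _)), ?_⟩
  have e : ∀ g, pair g (-u) = -pair g u := fun g => by simp [pair]
  rw [e, e]
  exact neg_le_neg l

theorem layers_mem (C : Set (Fin n → ℝ)) (h0 : (0 : Fin n → ℝ) ∈ C)
    (hadd : ∀ u ∈ C, ∀ v ∈ C, u + v ∈ C) (hsmul : ∀ c : ℝ, 0 ≤ c → ∀ u ∈ C, c • u ∈ C)
    (f : Fin n → ℝ) (hf : ∀ j, 0 ≤ f j)
    (hlev : ∀ θ : ℝ, 0 < θ → indic (Finset.univ.filter fun j => θ ≤ f j) ∈ C) : f ∈ C := by
  classical
  induction hcard : (Finset.univ.filter fun j => 0 < f j).card using Nat.strong_induction_on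
    generalizing f with
  | _ k ih =>
    subst hcard
    set S := Finset.univ.filter fun j => 0 < f j with hS
    rcases S.eq_empty_or_nonempty with he | hne
    · have : f = 0 := funext fun j => le_antisymm
        (not_lt.1 fun hj => Finset.notMem_empty j (he ▸
          Finset.mem_filter.2 ⟨Finset.mem_univ j, hj⟩)) (hf j)
      rwa [this]
    obtain ⟨j₀, hj₀, hmin⟩ := S.exists_min_image f hne
    have hθ : 0 < f j₀ := (Finset.mem_filter.1 hj₀).2
    let g : Fin n → ℝ := fun j => if 0 < f j then f j - f j₀ else 0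
    have hg : ∀ j, 0 ≤ g j := by
      intro j
      simp only [g]
      split_ifs with hj
      · exact sub_nonneg.2 (hmin j (by simp [hS, hj]))
      · exact le_rfl
    have hfilter : (Finset.univ.filter fun j => f j₀ ≤ f j) = S := by
      ext j
      simp only [hS, Finset.mem_filter, Finset.mem_univ, true_and]
      exact ⟨fun h => hθ.trans_le h, fun h => hmin j (by simp [hS, h])⟩
    have hgC : g ∈ C := by
      refine ih _ ?_ g hg ?_ rfl
      · refine Finset.card_lt_card ⟨fun j hj => ?_, fun h => ?_⟩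
        · simp only [Finset.mem_filter, Finset.mem_univ, true_and, g] at hj
          by_contra hj'
          rw [if_neg (by simpa [hS] using hj')] at hj
          exact lt_irrefl _ hj
        · have := h hj₀
          simp [g, hθ] at this
      · intro η hη
        have : (Finset.univ.filter fun j => η ≤ g j) =
            Finset.univ.filter fun j => η + f j₀ ≤ f j := by
          ext j
          simp only [Finset.mem_filter, Finset.mem_univ, true_and, g]
          split_ifs with hj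
          · constructor <;> intro <;> linarith
          · constructor <;> intro <;> linarith
        rw [this]
        exact hlev _ (by linarith)
    have hdec : f = g + f j₀ • indic S := by
      funext j
      by_cases hj : 0 < f j
      · simp [g, indic, hS, hj]
      · simp [g, indic, hS, le_antisymm (not_lt.1 hj) (hf j)]
    rw [hdec]
    exact hadd _ hgC _ (hsmul _ hθ.le _ (by rw [← hfilter]; exact hlev _ hθ))

end

section

variable {Ω : Set (Fin n → ℝ)} {ψ : (Fin n → ℝ) → ℝ} {G : (Fin n → ℝ) → Fin n → ℝ}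

theorem hasDerivAt_line (hψ : GradLine Ω ψ G)
    (y u : Fin n → ℝ) (t : ℝ) (ht : y + t • u ∈ Ω) :
    HasDerivAt (fun s : ℝ => ψ (y + s • u)) (pair (G (y + t • u)) u) t := by
  have h := hψ _ ht u
  have h' : HasDerivAt (fun r : ℝ => ψ (y + t • u + r • u)) (pair (G (y + t • u)) u) (t + -t) := by
    rwa [add_neg_cancel]
  refine (h'.comp_add_const t (-t)).congr_of_eventuallyEq (Filter.Eventually.of_forall fun s => ?_)
  show ψ (y + s • u) = ψ (y + t • u + (s + -t) • u)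
  congr 1
  rw [add_assoc, ← add_smul, ← add_assoc t, add_comm t s, add_assoc s, add_neg_cancel, add_zero]

theorem anti_swap (hψ : GradLine Ω ψ G) (hΩ : IsOpen Ω)
    {u w : Fin n → ℝ} (h : Anti Ω G u w) : Anti Ω G w u := fun x hx => by
  obtain ⟨ε, hε, k⟩ := h x hx
  obtain ⟨δ, hδ, kδ⟩ := exists_ball hΩ hx
  set m := min ε δ with hmdef
  have hm : 0 < m := lt_min hε hδ
  have hmε : m ≤ ε := min_le_left _ _
  set c := m / (3 * (‖u‖ + ‖w‖ + 1)) with hcdef
  have hc : 0 < c := by positivity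
  refine ⟨c, hc, fun y hy a ha => ?_⟩
  have hcm : c ≤ m / 3 := div_le_div_of_nonneg_left hm.le (by norm_num)
    (by linarith [norm_nonneg u, norm_nonneg w])
  have hcc : c = m / 3 / (‖u‖ + ‖w‖ + 1) := by rw [hcdef, div_div]
  have hM : 0 < ‖u‖ + ‖w‖ + 1 := by positivity
  have hball : ∀ t s : ℝ, t ∈ Icc 0 c → s ∈ Icc 0 c → ‖y + t • u + s • w - x‖ < m := by
    intro t s ht hs
    have e1 : ‖t • u‖ + t ≤ m / 3 :=
      small_bound (by positivity) hcc hM (by linarith [norm_nonneg w]) ht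
    have e2 : ‖s • w‖ + s ≤ m / 3 :=
      small_bound (by positivity) hcc hM (by linarith [norm_nonneg u]) hs
    calc ‖y + t • u + s • w - x‖ = ‖(y - x) + t • u + s • w‖ := by congr 1; abel
      _ ≤ ‖(y - x) + t • u‖ + ‖s • w‖ := norm_add_le _ _
      _ ≤ ‖y - x‖ + ‖t • u‖ + ‖s • w‖ := by linarith [norm_add_le (y - x) (t • u)]
      _ < m := by linarith [ht.1, hs.1]
  have hin : ∀ t s : ℝ, t ∈ Icc 0 c → s ∈ Icc 0 c → y + t • u + s • w ∈ Ω := fun t s ht hs =>
    kδ _ ((hball t s ht hs).trans_le (min_le_right _ _))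
  have h0 : (0 : ℝ) ∈ Icc 0 c := ⟨le_rfl, hc.le⟩
  refine ⟨by simpa using hin a 0 ha h0, ?_⟩
  let f : ℝ → ℝ := fun s => ψ (y + s • w) - ψ (y + a • u + s • w)
  have hfmono : MonotoneOn f (Icc 0 c) := by
    intro s₁ hs₁ s₂ hs₂ hs
    let k' : ℝ → ℝ := fun t => ψ (y + t • u + s₂ • w) - ψ (y + t • u + s₁ • w)
    have hsub : Icc (0 : ℝ) a ⊆ Icc 0 c := Icc_subset_Icc le_rfl ha.2
    have hd : ∀ t ∈ Icc (0 : ℝ) a, HasDerivAt k'
        (pair (G (y + t • u + s₂ • w)) u - pair (G (y + t • u + s₁ • w)) u) t := by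
      intro t ht
      have e : ∀ s : ℝ, ∀ r : ℝ, y + r • u + s • w = y + s • w + r • u := fun s r => by abel
      simp only [k', e]
      exact (hasDerivAt_line hψ _ u t (e s₂ t ▸ hin t s₂ (hsub ht) hs₂)).sub
        (hasDerivAt_line hψ _ u t (e s₁ t ▸ hin t s₁ (hsub ht) hs₁))
    have hanti : AntitoneOn k' (Icc 0 a) := by
      refine antitoneOn_of_deriv_nonpos (convex_Icc 0 a)
        (fun t ht => (hd t ht).continuousAt.continuousWithinAt)
        (fun t ht => (hd t (interior_subset ht)).differentiableAt.differentiableWithinAt)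
        fun t ht => ?_
      rw [(hd t (interior_subset ht)).deriv, sub_nonpos]
      have hk := (k _ ((hball t s₁ (hsub (interior_subset ht)) hs₁).trans_le hmε) (s₂ - s₁)
        ⟨sub_nonneg.2 hs, by linarith [hs₁.1, hs₂.2]⟩).2
      rwa [show y + t • u + s₁ • w + (s₂ - s₁) • w = y + t • u + s₂ • w by
        rw [sub_smul]; abel] at hk
    have := hanti ⟨le_rfl, ha.1⟩ ⟨ha.1, le_rfl⟩ ha.1
    simp only [k', zero_smul, add_zero] at this
    simp only [f]
    linarith
  have hfd : HasDerivWithinAt f (pair (G y) w - pair (G (y + a • u)) w) (Icc 0 c) 0 := by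
    have e1 := hasDerivAt_line hψ y w 0 (by simpa using hin 0 0 h0 h0)
    have e2 := hasDerivAt_line hψ (y + a • u) w 0 (hin a 0 ha h0)
    simp only [zero_smul, add_zero] at e1 e2
    exact (e1.sub e2).hasDerivWithinAt
  have hacc : AccPt (0 : ℝ) (𝓟 (Icc 0 c)) :=
    uniqueDiffWithinAt_iff_accPt.1 ((uniqueDiffOn_Icc hc) 0 h0)
  exact sub_nonneg.1 (hfd.nonneg_of_monotoneOn hacc hfmono)

theorem pair_single (g : Fin n → ℝ) (j : Fin n) : pair g (Pi.single j 1) = g j := by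
  simp [pair, Pi.single_apply]

theorem anti_of_increase (hΩ : IsOpen Ω) {u v : Fin n → ℝ}
    (h : ∀ x ∈ Ω, ∀ a : ℝ, 0 ≤ a → x + a • v ∈ Ω → pair (G x) u ≤ pair (G (x + a • v)) u) :
    Anti Ω G u (-v) := fun x hx => by
  obtain ⟨ε, hε, hb⟩ := exists_ball hΩ hx
  refine ⟨ε / (2 * (‖v‖ + 1)), by positivity, fun y hy a ha => ?_⟩
  have h1 : ‖a • v‖ + a ≤ ε / 2 :=
    small_bound (M := ‖v‖ + 1) (by positivity) (by rw [div_div, mul_comm]) (by positivity) le_rfl ha
  have h2 : ε / (2 * (‖v‖ + 1)) ≤ ε / 2 :=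
    div_le_div_of_nonneg_left hε.le (by norm_num) (by linarith [norm_nonneg v])
  have hy' : y + a • -v ∈ Ω := hb _ (by
    calc ‖y + a • -v - x‖ = ‖(y - x) - a • v‖ := by
          congr 1; rw [smul_neg]; abel
      _ ≤ ‖y - x‖ + ‖a • v‖ := norm_sub_le _ _
      _ < ε := by linarith [ha.1])
  refine ⟨hy', ?_⟩
  have e : y + a • -v + a • v = y := by rw [smul_neg]; abel
  have hk := h _ hy' a ha.1 (by rw [e]; exact hb y (by linarith [norm_nonneg v]))
  rwa [e] at hk

theorem anti_cross (hΩ : IsOpen Ω) (hψ : GradLine Ω ψ G)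
    (hoff : ∀ x ∈ Ω, ∀ j l : Fin n, j < l → ∀ a : ℝ, 0 ≤ a →
      x + a • Pi.single l (1 : ℝ) ∈ Ω → G x j ≤ G (x + a • Pi.single l (1 : ℝ)) j)
    (S T : Finset (Fin n)) (hST : Disjoint S T) : Anti Ω G (indic S) (-indic T) := by
  have hlt : ∀ j l : Fin n, j < l → Anti Ω G (Pi.single j 1) (-Pi.single l 1) := by
    intro j l hjl
    refine anti_of_increase hΩ fun x hx a ha hxa => ?_
    rw [pair_single, pair_single]
    exact hoff x hx j l hjl a ha hxa
  have hne : ∀ j l : Fin n, j ≠ l → Anti Ω G (Pi.single j 1) (-Pi.single l 1) := by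
    intro j l hjl
    rcases lt_or_gt_of_ne hjl with h | h
    · exact hlt j l h
    · have := anti_neg_neg (anti_swap hψ hΩ (hlt l j h)) hΩ
      simpa using this
  rw [indic_eq_sum S, indic_eq_sum T, ← Finset.sum_neg_distrib]
  exact anti_sum_left hΩ _ _ _ fun j hj => anti_sum_right hΩ _ _ _ fun l hl =>
    hne j l fun e => (Finset.disjoint_left.1 hST hj) (e ▸ hl)

theorem anti_nested (hΩ : IsOpen Ω) (hψ : GradLine Ω ψ G)
    (hcross : ∀ S T : Finset (Fin n), Disjoint S T → Anti Ω G (indic S) (-indic T))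
    (hshift : ∀ x ∈ Ω, ∀ j : Fin n, ∀ a : ℝ, 0 ≤ a →
      x + a • (1 : Fin n → ℝ) ∈ Ω → G (x + a • (1 : Fin n → ℝ)) j ≤ G x j)
    (A S : Finset (Fin n)) (hAS : A ⊆ S ∨ S ⊆ A) : Anti Ω G (indic A) (indic S) := by
  have hone : ∀ j : Fin n, Anti Ω G (Pi.single j 1) 1 := by
    intro j x hx
    obtain ⟨ε, hε, h⟩ := exists_ball hΩ hx
    refine ⟨ε / 4, by positivity, fun y hy a ha => ?_⟩
    have hn : ‖a • (1 : Fin n → ℝ)‖ ≤ a := by
      rw [norm_smul, Real.norm_eq_abs, abs_of_nonneg ha.1]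
      refine (mul_le_mul_of_nonneg_left ?_ ha.1).trans (le_of_eq (mul_one a))
      exact (pi_norm_le_iff_of_nonneg zero_le_one).2 fun i => by simp
    have hy' : y + a • (1 : Fin n → ℝ) ∈ Ω := h _ (by
      calc ‖y + a • (1 : Fin n → ℝ) - x‖ = ‖(y - x) + a • (1 : Fin n → ℝ)‖ := by congr 1; abel
        _ ≤ ‖y - x‖ + ‖a • (1 : Fin n → ℝ)‖ := norm_add_le _ _
        _ < ε := by linarith [ha.2])
    refine ⟨hy', ?_⟩
    rw [pair_single, pair_single]
    exact hshift y (h y (hy.trans_le (by linarith))) j a ha.1 hy'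
  have hsub : ∀ A S : Finset (Fin n), A ⊆ S → Anti Ω G (indic A) (indic S) := by
    intro A S hAS
    have e : indic S = 1 + -indic Sᶜ := by
      funext j
      by_cases hj : j ∈ S <;> simp [indic, hj]
    rw [e]
    refine anti_add_right ?_ (hcross A Sᶜ ?_)
    · rw [indic_eq_sum A]
      exact anti_sum_left hΩ _ _ _ fun j _ => hone j
    · exact Finset.disjoint_left.2 fun j hj hj' => Finset.mem_compl.1 hj' (hAS hj)
  rcases hAS with h | h
  · exact hsub A S h
  · exact anti_swap hψ hΩ (hsub S A h)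

theorem anti_self (hΩ : IsOpen Ω) (hψ : GradLine Ω ψ G)
    (hcross : ∀ S T : Finset (Fin n), Disjoint S T → Anti Ω G (indic S) (-indic T))
    (hnest : ∀ A S : Finset (Fin n), A ⊆ S ∨ S ⊆ A → Anti Ω G (indic A) (indic S))
    (d : Fin n → ℝ) : Anti Ω G d d := by
  let P : Fin n → ℝ := fun j => max (d j) 0
  let N : Fin n → ℝ := fun j => max (-d j) 0
  have hd : d = P + -N := by
    funext j
    simp only [P, N, Pi.add_apply, Pi.neg_apply]
    rcases le_total 0 (d j) with h | h <;> simp [h]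
  have levP : ∀ θ : ℝ, 0 < θ → (Finset.univ.filter fun j => θ ≤ P j) =
      Finset.univ.filter fun j => θ ≤ d j := fun θ hθ => by
    ext j
    simp [P, not_le.2 hθ]
  have levN : ∀ θ : ℝ, 0 < θ → (Finset.univ.filter fun j => θ ≤ N j) =
      Finset.univ.filter fun j => θ ≤ -d j := fun θ hθ => by
    ext j
    simp [N, not_le.2 hθ]
  have hchain : ∀ f : Fin n → ℝ, ∀ θ η : ℝ,
      (Finset.univ.filter fun j => θ ≤ f j) ⊆ (Finset.univ.filter fun j => η ≤ f j) ∨
        (Finset.univ.filter fun j => η ≤ f j) ⊆ (Finset.univ.filter fun j => θ ≤ f j) := by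
    intro f θ η
    rcases le_total η θ with h | h
    · exact Or.inl fun j hj => by simp at hj ⊢; linarith
    · exact Or.inr fun j hj => by simp at hj ⊢; linarith
  have hdisj : ∀ θ η : ℝ, 0 < θ → 0 < η →
      Disjoint (Finset.univ.filter fun j => θ ≤ d j) (Finset.univ.filter fun j => η ≤ -d j) :=
    fun θ η hθ hη => Finset.disjoint_left.2 fun j hj hj' => by simp at hj hj'; linarith
  have right : ∀ u : Fin n → ℝ,
      (∀ η : ℝ, 0 < η → Anti Ω G u (indic (Finset.univ.filter fun j => η ≤ d j))) →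
      (∀ η : ℝ, 0 < η → Anti Ω G u (-indic (Finset.univ.filter fun j => η ≤ -d j))) →
      Anti Ω G u d := by
    intro u hP hN
    rw [hd]
    refine anti_add_right ?_ ?_
    · exact layers_mem {w | Anti Ω G u w} (anti_zero_right hΩ u)
        (fun a ha b hb => anti_add_right ha hb) (fun c hc a ha => anti_smul_right hc ha) P
        (fun j => le_max_right _ _) fun θ hθ => by rw [levP θ hθ]; exact hP θ hθ
    · exact layers_mem {w | Anti Ω G u (-w)} (by simpa using anti_zero_right hΩ u)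
        (fun a ha b hb => by
          simp only [Set.mem_ofPred_eq, neg_add] at ha hb ⊢
          exact anti_add_right ha hb)
        (fun c hc a ha => by
          simp only [Set.mem_ofPred_eq, ← smul_neg] at ha ⊢
          exact anti_smul_right hc ha) N (fun j => le_max_right _ _)
        fun θ hθ => by rw [levN θ hθ]; exact hN θ hθ
  have hA : ∀ θ : ℝ, 0 < θ → Anti Ω G (indic (Finset.univ.filter fun j => θ ≤ d j)) d :=
    fun θ hθ => right _ (fun η _ => hnest _ _ (hchain d θ η))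
      fun η hη => hcross _ _ (hdisj θ η hθ hη)
  have hB : ∀ θ : ℝ, 0 < θ → Anti Ω G (-indic (Finset.univ.filter fun j => θ ≤ -d j)) d :=
    fun θ hθ => right _ (fun η hη => anti_swap hψ hΩ (hcross _ _ (hdisj η θ hη hθ)))
      fun η _ => anti_neg_neg (hnest _ _ (hchain (fun j => -d j) θ η)) hΩ
  have hPd : Anti Ω G P d := layers_mem {u | Anti Ω G u d} (anti_zero_left hΩ d)
    (fun a ha b hb => anti_add_left ha hb) (fun c hc a ha => anti_smul_left hc ha) P
    (fun j => le_max_right _ _) fun θ hθ => by rw [levP θ hθ]; exact hA θ hθ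
  have hNd : Anti Ω G (-N) d := layers_mem {u | Anti Ω G (-u) d}
    (by simpa using anti_zero_left hΩ d)
    (fun a ha b hb => by
      simp only [Set.mem_ofPred_eq, neg_add] at ha hb ⊢
      exact anti_add_left ha hb)
    (fun c hc a ha => by
      simp only [Set.mem_ofPred_eq, ← smul_neg] at ha ⊢
      exact anti_smul_left hc ha) N (fun j => le_max_right _ _)
    fun θ hθ => by rw [levN θ hθ]; exact hB θ hθ
  have := anti_add_left hPd hNd
  rwa [← hd] at this

/-- A gradient increasing in the other coordinates and decreasing under common shifts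
comes from a concave function. Only one order of each pair of coordinates is needed. -/
theorem concaveOn_of_gradient (hΩ : IsOpen Ω) (hconv : Convex ℝ Ω)
    (hψ : GradLine Ω ψ G)
    (hoff : ∀ x ∈ Ω, ∀ j l : Fin n, j < l → ∀ a : ℝ, 0 ≤ a →
      x + a • Pi.single l (1 : ℝ) ∈ Ω → G x j ≤ G (x + a • Pi.single l (1 : ℝ)) j)
    (hshift : ∀ x ∈ Ω, ∀ j : Fin n, ∀ a : ℝ, 0 ≤ a →
      x + a • (1 : Fin n → ℝ) ∈ Ω → G (x + a • (1 : Fin n → ℝ)) j ≤ G x j) :
    ConcaveOn ℝ Ω ψ := by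
  have hcross := anti_cross hΩ hψ hoff
  have hdd := anti_self hΩ hψ hcross (anti_nested hΩ hψ hcross hshift)
  refine ⟨hconv, fun x hx y hy a b ha hb hab => ?_⟩
  set d := y - x with hddef
  have hmem : ∀ t ∈ Icc (0 : ℝ) 1, x + t • d ∈ Ω := fun t ht => hconv.add_smul_sub_mem hx hy ht
  let g : ℝ → ℝ := fun t => pair (G (x + t • d)) d
  have hloc : ∀ s : ↥(Icc (0 : ℝ) 1), ∃ ε > (0 : ℝ), ∀ t₁ t₂ : ℝ, t₁ ≤ t₂ →
      |t₁ - s| < ε → |t₂ - s| < ε → g t₂ ≤ g t₁ := by
    intro s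
    obtain ⟨ε, hε, k⟩ := hdd d _ (hmem s s.2)
    refine ⟨ε / (2 * (‖d‖ + 1)), by positivity, fun t₁ t₂ h h₁ h₂ => ?_⟩
    have hb1 : ε / (2 * (‖d‖ + 1)) * (‖d‖ + 1) = ε / 2 := by field_simp
    have hb2 : ε / (2 * (‖d‖ + 1)) ≤ ε / 2 :=
      div_le_div_of_nonneg_left hε.le (by norm_num) (by linarith [norm_nonneg d])
    have hy' : ‖x + t₁ • d - (x + (s : ℝ) • d)‖ < ε := by
      rw [show x + t₁ • d - (x + (s : ℝ) • d) = (t₁ - s) • d by rw [sub_smul]; abel,
        norm_smul, Real.norm_eq_abs]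
      have := mul_le_mul h₁.le (show ‖d‖ ≤ ‖d‖ + 1 by linarith) (norm_nonneg d) (by positivity)
      linarith
    have hk := (k _ hy' (t₂ - t₁) ⟨sub_nonneg.2 h,
      by linarith [abs_lt.1 h₁, abs_lt.1 h₂]⟩).2
    rwa [show x + t₁ • d + (t₂ - t₁) • d = x + t₂ • d by rw [sub_smul]; abel] at hk
  choose ε hε hε' using hloc
  have hanti : AntitoneOn g (Icc 0 1) := by
    intro t₁ ht₁ t₂ ht₂ h12
    obtain ⟨p, hp0, hpmono, ⟨K, hK⟩, hpcov⟩ :=
      exists_monotone_Icc_subset_open_cover_Icc h12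
        (c := fun s : ↥(Icc (0 : ℝ) 1) => {t : ↥(Icc t₁ t₂) | |(t : ℝ) - s| < ε s})
        (fun s => isOpen_lt (by fun_prop) continuous_const)
        (fun t _ => Set.mem_iUnion.2
          ⟨⟨t, ht₁.1.trans t.2.1, t.2.2.trans ht₂.2⟩, by simp [hε]⟩)
    have hstep : ∀ k, g (p (k + 1)) ≤ g (p k) := by
      intro k
      obtain ⟨s, hs⟩ := hpcov k
      exact hε' s _ _ (hpmono (Nat.le_succ k))
        (hs ⟨le_rfl, hpmono (Nat.le_succ k)⟩) (hs ⟨hpmono (Nat.le_succ k), le_rfl⟩)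
    have := antitone_nat_of_succ_le (f := fun k => g (p k)) hstep (Nat.zero_le K)
    simpa [hp0, hK K le_rfl] using this
  have hdφ : ∀ t ∈ Icc (0 : ℝ) 1, HasDerivAt (fun s : ℝ => ψ (x + s • d)) (g t) t :=
    fun t ht => hasDerivAt_line hψ x d t (hmem t ht)
  have hconc : ConcaveOn ℝ (Icc (0 : ℝ) 1) (fun s : ℝ => ψ (x + s • d)) := by
    refine AntitoneOn.concaveOn_of_deriv (convex_Icc 0 1)
      (fun t ht => (hdφ t ht).continuousAt.continuousWithinAt)
      (fun t ht => (hdφ t (interior_subset ht)).differentiableAt.differentiableWithinAt) ?_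
    refine (hanti.mono interior_subset).congr fun t ht => ?_
    exact ((hdφ t (interior_subset ht)).deriv).symm
  have key := hconc.2 (left_mem_Icc.2 (zero_le_one' ℝ)) (right_mem_Icc.2 (zero_le_one' ℝ)) ha hb hab
  have e1 : x + d = y := by simp [hddef]
  have e2 : x + b • d = a • x + b • y := by
    rw [hddef, smul_sub, eq_sub_of_add_eq hab, sub_smul, one_smul]; abel
  simpa [e1, e2] using key

end

end Vale.Agent.P157.ConcaveCore
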