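import Vale.Agent.P157.Polar
import Vale.Agent.P157.GaussLaw

/-!
Radial integrals against the standard Gaussian vector: the exponential moment of one coordinate of
a uniform direction, rotations, shifts and sums.
-/

namespace Vale.Agent.P157.RadG

open MeasureTheory ProbabilityTheory Real Filter Topology Finset

variable {n : ℕ}

/-- Euclidean length. -/
noncomputable def nrm (y : Fin (n + 1) → ℝ) : ℝ := √(normSqF y)

/-- The first coordinate vector. -/
def axis (n : ℕ) : Fin (n + 1) → ℝ := Pi.single 0 1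

/-- The state `r e + s z` for the first coordinate vector `e`. -/
def mv (s r : ℝ) (z : Fin (n + 1) → ℝ) : Fin (n + 1) → ℝ := fun i => r * axis n i + s * z i

theorem nrm_nonneg (y : Fin (n + 1) → ℝ) : 0 ≤ nrm y := Real.sqrt_nonneg _

theorem measurable_nrm : Measurable (nrm : (Fin (n + 1) → ℝ) → ℝ) :=
  measurable_normSqF.sqrt

theorem continuous_nrm : Continuous (nrm : (Fin (n + 1) → ℝ) → ℝ) := by
  unfold nrm normSqF; fun_prop

theorem nrm_smul (c : ℝ) (y : Fin (n + 1) → ℝ) : nrm (fun i => c * y i) = |c| * nrm y := by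
  rw [nrm, nrm, show normSqF (fun i => c * y i) = c ^ 2 * normSqF y by
    simp [normSqF, mul_pow, mul_sum], Real.sqrt_mul (sq_nonneg c), Real.sqrt_sq_eq_abs]

theorem nrm_neg (y : Fin (n + 1) → ℝ) : nrm (fun i => -y i) = nrm y := by
  simpa using nrm_smul (-1) y

theorem abs_le_nrm (y : Fin (n + 1) → ℝ) (i : Fin (n + 1)) : |y i| ≤ nrm y := by
  rw [← Real.sqrt_sq_eq_abs]
  exact Real.sqrt_le_sqrt (single_le_sum (f := fun k => y k ^ 2) (fun k _ => sq_nonneg _)
    (mem_univ i))

theorem nrm_le_sum (y : Fin (n + 1) → ℝ) : nrm y ≤ ∑ i, |y i| := by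
  rw [nrm, Real.sqrt_le_iff]
  refine ⟨sum_nonneg fun i _ => abs_nonneg _, ?_⟩
  refine le_trans (le_of_eq ?_)
    (sum_sq_le_sq_sum_of_nonneg fun i (_ : i ∈ univ) => abs_nonneg (y i))
  simp [normSqF, sq_abs]

theorem nrm_axis (r : ℝ) : nrm (fun i => r * axis n i) = |r| := by
  rw [nrm_smul]
  have : nrm (axis n) = 1 := by
    simp [nrm, normSqF, axis, Pi.single_apply, ite_pow]
  rw [this, mul_one]

theorem mv_zero (r : ℝ) (z : Fin (n + 1) → ℝ) : nrm (mv 0 r z) = |r| := by
  unfold mv
  simp only [zero_mul, add_zero]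
  exact nrm_axis r

theorem nrm_mv_zero {s : ℝ} (hs : 0 ≤ s) (z : Fin (n + 1) → ℝ) : nrm (mv s 0 z) = s * nrm z := by
  unfold mv
  simp only [zero_mul, zero_add]
  rw [nrm_smul, abs_of_nonneg hs]

theorem continuous_mv (s r : ℝ) : Continuous (mv s r : (Fin (n + 1) → ℝ) → _) := by
  unfold mv; fun_prop

theorem measurable_mv (s r : ℝ) : Measurable (mv s r : (Fin (n + 1) → ℝ) → _) :=
  (continuous_mv s r).measurable

theorem nrm_mv_le (s r : ℝ) (z : Fin (n + 1) → ℝ) :
    nrm (mv s r z) ≤ |r| + |s| * ∑ i, |z i| := by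
  refine (nrm_le_sum _).trans ?_
  calc ∑ i, |mv s r z i| ≤ ∑ i, (|r| * |axis n i| + |s| * |z i|) :=
        sum_le_sum fun i _ => by
          simp only [mv]
          refine (abs_add_le _ _).trans_eq ?_
          rw [abs_mul, abs_mul]
    _ = _ := by
        rw [sum_add_distrib, ← mul_sum, ← mul_sum]
        simp [axis, Pi.single_apply, apply_ite]

/-! ### The Gaussian vector -/

theorem integrable_exp_abs (k : ℝ) :
    Integrable (fun g : ℝ => exp (k * |g|)) (gaussianReal 0 1) := by
  refine ((integrable_exp_mul_gaussianReal k).add (integrable_exp_mul_gaussianReal (-k))).mono'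
    (by fun_prop) (Eventually.of_forall fun g => ?_)
  simp only [Pi.add_apply, Real.norm_eq_abs, abs_exp]
  rcases le_total 0 g with h | h
  · rw [abs_of_nonneg h]; linarith [exp_pos (-k * g)]
  · rw [abs_of_nonpos h, mul_neg, ← neg_mul]; linarith [exp_pos (k * g)]

theorem integrable_exp_sum (k : ℝ) :
    Integrable (fun z : Fin (n + 1) → ℝ => exp (k * ∑ i, |z i|)) (gauss (Fin (n + 1))) := by
  simp only [mul_sum, Real.exp_sum]
  exact Integrable.fintype_prod fun _ => integrable_exp_abs k

theorem integrable_of_growth {f : (Fin (n + 1) → ℝ) → ℝ} (hf : Measurable f) {A k : ℝ}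
    (hb : ∀ z, |f z| ≤ A * exp (k * ∑ i, |z i|)) : Integrable f (gauss (Fin (n + 1))) :=
  ((integrable_exp_sum k).const_mul A).mono' hf.aestronglyMeasurable
    (Eventually.of_forall fun z => (Real.norm_eq_abs _).trans_le (hb z))

theorem measurePreserving_neg_gauss :
    MeasurePreserving (fun z : Fin (n + 1) → ℝ => fun i => -z i)
      (gauss (Fin (n + 1))) (gauss (Fin (n + 1))) := by
  refine measurePreserving_pi (f := fun _ (g : ℝ) => -g) _ _ fun _ => ⟨measurable_neg, ?_⟩
  rw [gaussianReal_map_neg, neg_zero]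

theorem integral_neg_gauss {f : (Fin (n + 1) → ℝ) → ℝ} (hf : Measurable f) :
    ∫ z, f (fun i => -z i) ∂gauss (Fin (n + 1)) = ∫ z, f z ∂gauss (Fin (n + 1)) := by
  conv_rhs => rw [← measurePreserving_neg_gauss.map_eq]
  exact (integral_map measurePreserving_neg_gauss.measurable.aemeasurable
    hf.aestronglyMeasurable).symm

theorem integral_gauss_shift (f : (Fin (n + 1) → ℝ) → ℝ) (c : ℝ) :
    ∫ z, f (fun i => z i + c * axis n i) ∂gauss (Fin (n + 1)) =
      exp (-c ^ 2 / 2) * ∫ z, f z * exp (c * z 0) ∂gauss (Fin (n + 1)) := by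
  have hm : Measurable fun z : Fin (n + 1) → ℝ =>
      ENNReal.ofReal (∏ i, gaussianPDFReal 0 1 (z i)) := by fun_prop
  rw [gauss_eq_withDensity, integral_withDensity_eq_integral_toReal_smul hm (by simp),
    integral_withDensity_eq_integral_toReal_smul hm (by simp), ← integral_const_mul,
    ← integral_add_right_eq_self (μ := (volume : Measure (Fin (n + 1) → ℝ))) _
      (-(fun i => c * axis n i))]
  refine integral_congr_ae (Eventually.of_forall fun z => ?_)
  simp only [smul_eq_mul, Pi.add_apply, Pi.neg_apply,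
    prod_gaussianPDFReal]
  have e : (fun i => z i + -(c * axis n i) + c * axis n i) = z := funext fun i => by ring
  rw [e]
  have hsq : normSqF (fun i => z i + -(c * axis n i)) = normSqF z - 2 * c * z 0 + c ^ 2 := by
    have hax : ∀ i, (z i + -(c * axis n i)) ^ 2 =
        z i ^ 2 + (if i = 0 then -(2 * c * z 0) + c ^ 2 else 0) := fun i => by
      by_cases h : i = 0
      · subst h; simp [axis]; ring
      · simp [axis, h]
    simp only [normSqF, hax, sum_add_distrib, sum_ite_eq', mem_univ,
      if_pos]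
    ring
  rw [hsq, show exp (-(normSqF z - 2 * c * z 0 + c ^ 2) / 2) =
      exp (-(normSqF z) / 2) * exp (c * z 0) * exp (-c ^ 2 / 2) by
    rw [← exp_add, ← exp_add]; ring_nf]
  rw [ENNReal.toReal_ofReal (by positivity), ENNReal.toReal_ofReal (by positivity)]
  ring

theorem integral_exp_coord (c : ℝ) :
    ∫ z, exp (c * z 0) ∂gauss (Fin (n + 1)) = exp (c ^ 2 / 2) := by
  have h := integral_gauss_shift (n := n) (fun _ => 1) c
  simp only [integral_const, probReal_univ, one_smul, one_mul] at h
  have e : exp (-c ^ 2 / 2) * exp (c ^ 2 / 2) = 1 := by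
    rw [← exp_add, ← exp_zero]; ring_nf
  exact mul_left_cancel₀ (exp_pos (-c ^ 2 / 2)).ne' (h.symm.trans e.symm)

/-! ### Rotations -/

/-- The reflection exchanging the directions of `y` and the first coordinate vector. -/
noncomputable def refl (y : Fin (n + 1) → ℝ) (x : Fin (n + 1) → ℝ) : Fin (n + 1) → ℝ :=
  fun l => x l - 2 * ((∑ i, x i * (y i - nrm y * axis n i)) /
    normSqF (fun i => y i - nrm y * axis n i)) * (y l - nrm y * axis n l)

theorem continuous_refl (y : Fin (n + 1) → ℝ) : Continuous (refl y) := by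
  unfold refl; fun_prop

theorem refl_linear (y : Fin (n + 1) → ℝ) (a b : ℝ) (u v : Fin (n + 1) → ℝ) :
    refl y (fun i => a * u i + b * v i) = fun i => a * refl y u i + b * refl y v i := by
  funext l
  simp only [refl, add_mul, sum_add_distrib, mul_assoc, ← mul_sum]
  ring

theorem normSqF_refl (y x : Fin (n + 1) → ℝ) : normSqF (refl y x) = normSqF x := by
  set w : Fin (n + 1) → ℝ := fun i => y i - nrm y * axis n i with hw
  set k := (∑ i, x i * w i) / normSqF w with hk
  have e : normSqF (refl y x) = normSqF x - 4 * k * ∑ i, x i * w i + 4 * k ^ 2 * normSqF w := by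
    simp only [normSqF, refl, mul_sum, ← sum_sub_distrib, ← sum_add_distrib]
    exact sum_congr rfl fun i _ => by simp only [hk, hw, normSqF]; ring
  rcases eq_or_ne (normSqF w) 0 with h0 | h0
  · rw [e, hk, h0]; simp
  · rw [e, hk]; field_simp; ring

theorem nrm_refl (y x : Fin (n + 1) → ℝ) : nrm (refl y x) = nrm x := by
  rw [nrm, nrm, normSqF_refl]

theorem refl_self (y : Fin (n + 1) → ℝ) : refl y y = fun i => nrm y * axis n i := by
  set w : Fin (n + 1) → ℝ := fun i => y i - nrm y * axis n i with hw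
  funext l
  rcases eq_or_ne (normSqF w) 0 with h0 | h0
  · have hl : w l = 0 := by
      simpa using (sum_eq_zero_iff_of_nonneg fun j _ => sq_nonneg (w j)).1 h0 l (mem_univ l)
    simp only [hw] at hl
    simp only [refl, hl, mul_zero, sub_zero]
    linarith
  · have hsum : ∑ i, y i * (nrm y * axis n i) = nrm y * y 0 := by
      simp [axis, Pi.single_apply, mul_comm]
    have hsq : ∑ i, (nrm y * axis n i) ^ 2 = nrm y ^ 2 := by
      simp [axis, Pi.single_apply, ite_pow]
    have hyy : nrm y ^ 2 = normSqF y := Real.sq_sqrt (normSqF_nonneg y)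
    have key : 2 * ∑ i, y i * w i = normSqF w := by
      simp only [normSqF, hw, mul_sub, sub_sq, sum_sub_distrib, sum_add_distrib, hsum, hsq]
      simp only [mul_assoc, ← mul_sum, hsum, ← pow_two]
      unfold normSqF at hyy
      linarith
    simp only [refl]
    simp only [hw] at key h0
    rw [← mul_div_assoc, key, div_self h0]
    ring

theorem refl_dot (y x : Fin (n + 1) → ℝ) : ∑ i, x i * y i = nrm y * refl y x 0 := by
  have h := normSqF_refl y (fun i => 1 * x i + 1 * y i)
  rw [refl_linear, refl_self] at h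
  have h1 := normSqF_refl y x
  have hyy : nrm y ^ 2 = normSqF y := Real.sq_sqrt (normSqF_nonneg y)
  simp only [normSqF, add_sq, sum_add_distrib, one_mul, mul_assoc, ← mul_sum] at h h1 hyy
  have hsum : ∑ i, refl y x i * (nrm y * axis n i) = nrm y * refl y x 0 := by
    simp [axis, Pi.single_apply, mul_comm]
  have hsq : ∑ i, (nrm y * axis n i) ^ 2 = nrm y ^ 2 := by
    simp [axis, Pi.single_apply, ite_pow]
  rw [hsum, hsq] at h
  linarith

theorem integral_refl (y : Fin (n + 1) → ℝ) {f : (Fin (n + 1) → ℝ) → ℝ} (hf : Measurable f) :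
    ∫ z, f (refl y z) ∂gauss (Fin (n + 1)) = ∫ z, f z ∂gauss (Fin (n + 1)) := by
  set a : Fin (n + 1) → Fin (n + 1) → ℝ := fun l i => refl y (Pi.single i 1) l with ha
  have hlin : ∀ z l, ∑ i, z i * a l i = refl y z l := by
    intro z l
    simp only [ha, refl, Pi.single_apply, ite_mul, one_mul, zero_mul, sum_ite_eq', mem_univ,
      if_pos, mul_sub, sum_sub_distrib, mul_ite, mul_one, mul_zero, sum_ite_eq]
    simp only [sub_div, sum_div, mul_sum, sum_mul, mul_sub, sub_mul, ← sum_sub_distrib]
    congr 1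
    all_goals exact sum_congr rfl fun i _ => by ring
  have hsym : ∀ l i, a l i = a i l := by
    intro l i
    simp only [ha, refl, Pi.single_apply, ite_mul, one_mul, zero_mul, sum_ite_eq', mem_univ,
      if_pos, eq_comm (a := l)]
    ring
  have hlaw := map_gauss_eq a (fun l i => if i = l then (1 : ℝ) else 0) (fun s => by
    have e : ∀ i, ∑ l, s l * a l i = refl y s i := fun i => by
      rw [← hlin s i]; exact sum_congr rfl fun l _ => by rw [hsym]
    simp only [e, mul_ite, mul_one, mul_zero, sum_ite_eq, mem_univ, if_pos]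
    exact normSqF_refl y s)
  have e2 : (fun g : Fin (n + 1) → ℝ => fun l => ∑ i, g i * if i = l then (1 : ℝ) else 0) = id := by
    funext g l; simp
  rw [e2, Measure.map_id, show (fun g : Fin (n + 1) → ℝ => fun l => ∑ i, g i * a l i) = refl y from
    funext fun g => funext fun l => hlin g l] at hlaw
  conv_rhs => rw [← hlaw]
  exact (integral_map (continuous_refl y).aemeasurable hf.aestronglyMeasurable).symm

/-- A radial function averaged around `y` depends on the length of `y` only. -/
theorem integral_radial (y : Fin (n + 1) → ℝ) (s : ℝ) {f : ℝ → ℝ} (hf : Measurable f) :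
    ∫ z, f (nrm fun i => y i + s * z i) ∂gauss (Fin (n + 1)) =
      ∫ z, f (nrm (mv s (nrm y) z)) ∂gauss (Fin (n + 1)) := by
  rw [← integral_refl y (f := fun z => f (nrm (mv s (nrm y) z)))
    (hf.comp (measurable_nrm.comp (measurable_mv _ _)))]
  refine integral_congr_ae (Eventually.of_forall fun z => ?_)
  simp only
  rw [← nrm_refl y (fun i => y i + s * z i)]
  congr 2
  have h := refl_linear y 1 s y z
  simp only [one_mul] at h
  rw [h, refl_self]
  rfl

/-- Two independent increments compose. -/
theorem integral_conv (a b : ℝ) {f : (Fin (n + 1) → ℝ) → ℝ} (hf : Measurable f)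
    (hi : Integrable (fun p : (Fin (n + 1) → ℝ) × (Fin (n + 1) → ℝ) =>
      f (fun i => a * p.1 i + b * p.2 i)) ((gauss (Fin (n + 1))).prod (gauss (Fin (n + 1))))) :
    ∫ z, ∫ z', f (fun i => a * z i + b * z' i) ∂gauss (Fin (n + 1)) ∂gauss (Fin (n + 1)) =
      ∫ z, f (fun i => √(a ^ 2 + b ^ 2) * z i) ∂gauss (Fin (n + 1)) := by
  set r := √(a ^ 2 + b ^ 2)
  have hlaw := map_gauss_eq (ι := Fin (n + 1) ⊕ Fin (n + 1)) (κ := Fin (n + 1))
    (fun l k => Sum.elim (fun i => if i = l then a else 0) (fun i => if i = l then b else 0) k)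
    (fun l i => if i = l then r else 0) (fun s => by
      simp only [Fintype.sum_sum_type, Sum.elim_inl, Sum.elim_inr, mul_ite, mul_zero, sum_ite_eq,
        mem_univ, if_pos, mul_pow, ← sum_add_distrib, r,
        Real.sq_sqrt (show 0 ≤ a ^ 2 + b ^ 2 by positivity)]
      exact sum_congr rfl fun i _ => by ring)
  have hmp := measurePreserving_sumPiEquivProdPi
    (fun _ : Fin (n + 1) ⊕ Fin (n + 1) => gaussianReal 0 1)
  have e1 : (fun g : Fin (n + 1) → ℝ => fun l => ∑ i, g i * if i = l then r else 0) =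
      fun g l => r * g l := by
    funext g l; simp [mul_comm]
  have e2 : (fun g : Fin (n + 1) ⊕ Fin (n + 1) → ℝ => fun l => ∑ k, g k *
      Sum.elim (fun i => if i = l then a else 0) (fun i => if i = l then b else 0) k) =
      fun g l => a * g (Sum.inl l) + b * g (Sum.inr l) := by
    funext g l; simp [mul_comm]
  rw [e1, e2] at hlaw
  rw [integral_integral hi]
  have h1 := congrArg (fun μ : Measure (Fin (n + 1) → ℝ) => ∫ v, f v ∂μ) hlaw
  rw [integral_map (Measurable.aemeasurable (by fun_prop)) hf.aestronglyMeasurable,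
    integral_map (Measurable.aemeasurable (by fun_prop)) hf.aestronglyMeasurable] at h1
  rw [← h1]
  exact (hmp.integral_comp' _).symm

/-! ### One coordinate of a uniform direction -/

/-- The exponential moment of the first coordinate of a uniform direction. -/
noncomputable def dirExp (n : ℕ) (t : ℝ) : ℝ :=
  ∫ a, exp (t * a 0) ∂unitUnif (Fin (n + 1))

/-- Its derivative. -/
noncomputable def dirExp1 (n : ℕ) (t : ℝ) : ℝ :=
  ∫ a, a 0 * exp (t * a 0) ∂unitUnif (Fin (n + 1))

/-- The tilted mean of the first coordinate of a uniform direction. -/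
noncomputable def dirMean (n : ℕ) (t : ℝ) : ℝ := dirExp1 n t / dirExp n t

theorem abs_udir_le (z : Fin (n + 1) → ℝ) (i : Fin (n + 1)) : |udir z i| ≤ 1 := by
  rw [udir, abs_div, abs_of_nonneg (Real.sqrt_nonneg _)]
  exact div_le_one_of_le₀ (abs_le_nrm z i) (Real.sqrt_nonneg _)

theorem unitUnif_coord_le (i : Fin (n + 1)) : ∀ᵐ a ∂unitUnif (Fin (n + 1)), |a i| ≤ 1 := by
  rw [← map_udir, ae_map_iff measurable_udir.aemeasurable
    (measurableSet_le (by fun_prop) measurable_const)]
  exact Eventually.of_forall fun z => abs_udir_le z i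

theorem integrable_dir {F : (Fin (n + 1) → ℝ) → ℝ} (hF : Measurable F) {C : ℝ}
    (hC : ∀ a, |a 0| ≤ 1 → |F a| ≤ C) : Integrable F (unitUnif (Fin (n + 1))) :=
  Integrable.of_bound hF.aestronglyMeasurable C
    ((unitUnif_coord_le 0).mono fun a ha => (Real.norm_eq_abs _).trans_le (hC a ha))

theorem exp_coord_le (t : ℝ) {a : Fin (n + 1) → ℝ} (ha : |a 0| ≤ 1) :
    exp (t * a 0) ≤ exp |t| := by
  refine exp_le_exp.2 ((le_abs_self _).trans ?_)
  rw [abs_mul]
  exact mul_le_of_le_one_right (abs_nonneg t) ha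

theorem integrable_dirExp (t : ℝ) :
    Integrable (fun a => exp (t * a 0)) (unitUnif (Fin (n + 1))) :=
  integrable_dir (by fun_prop) fun a ha => by rw [abs_exp]; exact exp_coord_le t ha

theorem integrable_dirExp1 (t : ℝ) :
    Integrable (fun a => a 0 * exp (t * a 0)) (unitUnif (Fin (n + 1))) :=
  integrable_dir (C := exp |t|) (by fun_prop) fun a ha => by
    rw [abs_mul, abs_exp]
    exact (mul_le_mul ha (exp_coord_le t ha) (exp_pos _).le zero_le_one).trans_eq (one_mul _)

theorem dirExp_pos (n : ℕ) (t : ℝ) : 0 < dirExp n t := integral_exp_pos (integrable_dirExp t)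

theorem abs_dirExp1_le (n : ℕ) (t : ℝ) : |dirExp1 n t| ≤ dirExp n t := by
  refine abs_integral_le_integral_abs.trans (integral_mono_ae (integrable_dirExp1 t).abs
    (integrable_dirExp t) ((unitUnif_coord_le 0).mono fun a ha => ?_))
  simp only [abs_mul, abs_exp]
  exact mul_le_of_le_one_left (exp_pos _).le ha

theorem dirExp_le (n : ℕ) (t : ℝ) : dirExp n t ≤ exp |t| := by
  refine le_trans (integral_mono_ae (integrable_dirExp t) (integrable_const (exp |t|))
    ((unitUnif_coord_le 0).mono fun a ha => exp_coord_le t ha)) (le_of_eq ?_)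
  simp

theorem abs_dirMean_le (n : ℕ) (t : ℝ) : |dirMean n t| ≤ 1 := by
  rw [dirMean, abs_div, abs_of_pos (dirExp_pos n t), div_le_one (dirExp_pos n t)]
  exact abs_dirExp1_le n t

theorem dirExp1_eq (n : ℕ) (t : ℝ) : dirExp1 n t = dirMean n t * dirExp n t :=
  (div_mul_cancel₀ _ (dirExp_pos n t).ne').symm

theorem hasDerivAt_dirExp (n : ℕ) (t : ℝ) : HasDerivAt (dirExp n) (dirExp1 n t) t := by
  refine (hasDerivAt_integral_of_dominated_loc_of_deriv_le (x₀ := t)
    (F := fun t (a : Fin (n + 1) → ℝ) => exp (t * a 0))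
    (F' := fun t a => a 0 * exp (t * a 0)) (bound := fun _ => exp (|t| + 1))
    (Metric.ball_mem_nhds t one_pos)
    (Eventually.of_forall fun y => (integrable_dirExp y).aestronglyMeasurable)
    (integrable_dirExp t) (integrable_dirExp1 t).aestronglyMeasurable
    ((unitUnif_coord_le 0).mono fun a ha y hy => ?_) (integrable_const _)
    (Eventually.of_forall fun a y _ => ?_)).2
  · rw [Metric.mem_ball, Real.dist_eq] at hy
    rw [norm_mul, Real.norm_eq_abs, Real.norm_eq_abs, abs_exp]
    refine (mul_le_of_le_one_left (exp_pos _).le ha).trans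
      ((exp_coord_le y ha).trans (exp_le_exp.2 ?_))
    have := abs_add_le t (y - t)
    rw [add_sub_cancel] at this
    linarith
  · have := ((hasDerivAt_id y).mul_const (a 0)).exp
    simpa [mul_comm] using this

theorem continuous_dirExp (n : ℕ) : Continuous (dirExp n) :=
  continuous_iff_continuousAt.2 fun t => (hasDerivAt_dirExp n t).continuousAt

theorem unitUnif_map_neg :
    (unitUnif (Fin (n + 1))).map (fun a => fun i => -a i) = unitUnif (Fin (n + 1)) := by
  rw [← map_udir, Measure.map_map (by fun_prop) measurable_udir]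
  conv_rhs => rw [← measurePreserving_neg_gauss.map_eq,
    Measure.map_map measurable_udir measurePreserving_neg_gauss.measurable]
  congr 1
  funext z i
  simp [udir, normSqF, neg_div]

theorem dirExp_neg (n : ℕ) (t : ℝ) : dirExp n (-t) = dirExp n t := by
  unfold dirExp
  conv_rhs => rw [← unitUnif_map_neg, integral_map (Measurable.aemeasurable (by fun_prop))
    (Measurable.aestronglyMeasurable (by fun_prop))]
  simp

theorem dirExp_abs (n : ℕ) (t : ℝ) : dirExp n |t| = dirExp n t := by
  rcases abs_choice t with h | h <;> rw [h]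
  exact dirExp_neg n t

theorem dirExp_zero (n : ℕ) : dirExp n 0 = 1 := by simp [dirExp]

theorem dirMean_neg (n : ℕ) (t : ℝ) : dirMean n (-t) = -dirMean n t := by
  have : dirExp1 n (-t) = -dirExp1 n t := by
    have h1 : HasDerivAt (fun y => dirExp n (-y)) (-dirExp1 n (-t)) t := by
      simpa [Function.comp_def] using (hasDerivAt_dirExp n (-t)).comp t (hasDerivAt_neg t)
    simp only [dirExp_neg] at h1
    linarith [h1.unique (hasDerivAt_dirExp n t)]
  rw [dirMean, dirMean, this, dirExp_neg, neg_div]

theorem dirMean_zero (n : ℕ) : dirMean n 0 = 0 := by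
  have := dirMean_neg n 0
  rw [neg_zero] at this
  linarith

theorem monotone_dirMean (n : ℕ) : Monotone (dirMean n) := by
  intro t u htu
  rw [dirMean, dirMean, div_le_div_iff₀ (dirExp_pos n t) (dirExp_pos n u)]
  set μ := unitUnif (Fin (n + 1))
  have h0 : 0 ≤ ∫ p : (Fin (n + 1) → ℝ) × (Fin (n + 1) → ℝ),
      (p.1 0 * exp (u * p.1 0) * exp (t * p.2 0) - p.1 0 * exp (t * p.1 0) * exp (u * p.2 0)) -
      (exp (u * p.1 0) * (p.2 0 * exp (t * p.2 0)) - exp (t * p.1 0) * (p.2 0 * exp (u * p.2 0)))
        ∂μ.prod μ := by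
    refine integral_nonneg fun p => ?_
    have e : ∀ a b : ℝ, 0 ≤ (a - b) * (exp (u * a + t * b) - exp (u * b + t * a)) := by
      intro a b
      rcases le_total b a with h | h
      · exact mul_nonneg (sub_nonneg.2 h)
          (sub_nonneg.2 (exp_le_exp.2 (by
            nlinarith [mul_nonneg (sub_nonneg.2 htu) (sub_nonneg.2 h)])))
      · exact mul_nonneg_of_nonpos_of_nonpos (sub_nonpos.2 h)
          (sub_nonpos.2 (exp_le_exp.2 (by
            nlinarith [mul_nonneg (sub_nonneg.2 htu) (sub_nonneg.2 h)])))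
    refine le_of_le_of_eq (e (p.1 0) (p.2 0)) ?_
    simp only [exp_add]
    ring
  have A1 := (integrable_dirExp1 (n := n) u).mul_prod (integrable_dirExp (n := n) t)
  have A2 := (integrable_dirExp1 (n := n) t).mul_prod (integrable_dirExp (n := n) u)
  have A3 := (integrable_dirExp (n := n) u).mul_prod (integrable_dirExp1 (n := n) t)
  have A4 := (integrable_dirExp (n := n) t).mul_prod (integrable_dirExp1 (n := n) u)
  rw [integral_sub, integral_sub A1 A2, integral_sub A3 A4,
    integral_prod_mul (fun a : Fin (n + 1) → ℝ => a 0 * exp (u * a 0))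
      (fun b : Fin (n + 1) → ℝ => exp (t * b 0)),
    integral_prod_mul (fun a : Fin (n + 1) → ℝ => a 0 * exp (t * a 0))
      (fun b : Fin (n + 1) → ℝ => exp (u * b 0)),
    integral_prod_mul (fun a : Fin (n + 1) → ℝ => exp (u * a 0))
      (fun b : Fin (n + 1) → ℝ => b 0 * exp (t * b 0)),
    integral_prod_mul (fun a : Fin (n + 1) → ℝ => exp (t * a 0))
      (fun b : Fin (n + 1) → ℝ => b 0 * exp (u * b 0))]
    at h0
  · simp only [dirExp1, dirExp]
    linarith
  · exact A1.sub A2
  · exact A3.sub A4

theorem measurable_dirMean (n : ℕ) : Measurable (dirMean n) := (monotone_dirMean n).measurable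

theorem dirMean_nonneg (n : ℕ) {t : ℝ} (ht : 0 ≤ t) : 0 ≤ dirMean n t :=
  (dirMean_zero n).symm.trans_le (monotone_dirMean n ht)

theorem hasDerivAt_log_dirExp (n : ℕ) (t : ℝ) :
    HasDerivAt (fun y => log (dirExp n y)) (dirMean n t) t :=
  (hasDerivAt_dirExp n t).log (dirExp_pos n t).ne'

/-- Both factors of the kernel order pairs of lengths. -/
theorem dirExp_cross (n : ℕ) {a b p q : ℝ} (hb : 0 ≤ b) (hab : b ≤ a) (hp : 0 ≤ p)
    (hpq : p ≤ q) : dirExp n (p * a) * dirExp n (q * b) ≤ dirExp n (q * a) * dirExp n (p * b) := by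
  have hd : ∀ x : ℝ, HasDerivAt (fun x => log (dirExp n (q * x)) - log (dirExp n (p * x)))
      (dirMean n (q * x) * q - dirMean n (p * x) * p) x := fun x => by
    have h1 := (hasDerivAt_log_dirExp n (q * x)).comp x ((hasDerivAt_id x).const_mul q)
    have h2 := (hasDerivAt_log_dirExp n (p * x)).comp x ((hasDerivAt_id x).const_mul p)
    simp only [mul_one] at h1 h2
    exact h1.sub h2
  have hmono : MonotoneOn (fun x => log (dirExp n (q * x)) - log (dirExp n (p * x))) (Set.Ici 0) :=
    monotoneOn_of_deriv_nonneg (convex_Ici 0)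
      (fun x _ => (hd x).continuousAt.continuousWithinAt)
      (fun x _ => (hd x).differentiableAt.differentiableWithinAt) fun x hx => by
        rw [interior_Ici] at hx
        rw [(hd x).deriv]
        have hx' : 0 ≤ x := le_of_lt hx
        nlinarith [monotone_dirMean n (mul_le_mul_of_nonneg_right hpq hx'),
          dirMean_nonneg n (mul_nonneg hp hx')]
  have := hmono hb (hb.trans hab) hab
  simp only at this
  rw [← log_le_log_iff (mul_pos (dirExp_pos _ _) (dirExp_pos _ _))
    (mul_pos (dirExp_pos _ _) (dirExp_pos _ _)), log_mul (dirExp_pos _ _).ne' (dirExp_pos _ _).ne',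
    log_mul (dirExp_pos _ _).ne' (dirExp_pos _ _).ne']
  linarith

/-! ### Polar integration of radial functions -/

/-- A radial function times a function of the first coordinate of the direction. -/
theorem integral_polar {F : ℝ → ℝ} {Ψ : ℝ → ℝ → ℝ} (hF : Measurable F)
    (hΨ : Measurable (Function.uncurry Ψ))
    (hi : Integrable (fun z => F (nrm z) * Ψ (nrm z) (udir z 0)) (gauss (Fin (n + 1)))) :
    ∫ z, F (nrm z) * Ψ (nrm z) (udir z 0) ∂gauss (Fin (n + 1)) =
      ∫ z, F (nrm z) * ∫ a, Ψ (nrm z) (a 0) ∂unitUnif (Fin (n + 1)) ∂gauss (Fin (n + 1)) := by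
  set T : (Fin (n + 1) → ℝ) × ℝ → ℝ := fun p => F (√p.2) * Ψ (√p.2) (p.1 0)
  have hT : Measurable T :=
    (hF.comp (by fun_prop)).mul (hΨ.comp
      ((show Measurable fun p : (Fin (n + 1) → ℝ) × ℝ => √p.2 by fun_prop).prodMk (by fun_prop)))
  have hp : Measurable fun ξ : Fin (n + 1) → ℝ => (udir ξ, normSqF ξ) :=
    measurable_udir.prodMk measurable_normSqF
  have : IsProbabilityMeasure ((gauss (Fin (n + 1))).map normSqF) :=
    Measure.isProbabilityMeasure_map measurable_normSqF.aemeasurable
  have hTi : Integrable T ((unitUnif (Fin (n + 1))).prod ((gauss (Fin (n + 1))).map normSqF)) := by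
    rw [← map_polar, integrable_map_measure hT.aestronglyMeasurable hp.aemeasurable]
    exact hi
  have hm2 : Measurable fun x : ℝ => F (√x) * ∫ a, Ψ (√x) (a 0) ∂unitUnif (Fin (n + 1)) := by
    refine (hF.comp (by fun_prop)).mul
      (StronglyMeasurable.integral_prod_right' (f := fun p : ℝ × (Fin (n + 1) → ℝ) =>
        Ψ (√p.1) (p.2 0)) ?_).measurable
    exact (hΨ.comp ((show Measurable fun p : ℝ × (Fin (n + 1) → ℝ) => √p.1 by fun_prop).prodMk
      (by fun_prop))).stronglyMeasurable
  calc ∫ z, F (nrm z) * Ψ (nrm z) (udir z 0) ∂gauss (Fin (n + 1))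
      = ∫ p, T p ∂(gauss (Fin (n + 1))).map fun ξ => (udir ξ, normSqF ξ) :=
        (integral_map hp.aemeasurable hT.aestronglyMeasurable).symm
    _ = ∫ x, ∫ a, T (a, x) ∂unitUnif (Fin (n + 1)) ∂(gauss (Fin (n + 1))).map normSqF := by
        rw [map_polar, integral_prod_symm _ hTi]
    _ = _ := by
        simp only [T, integral_const_mul]
        exact integral_map measurable_normSqF.aemeasurable hm2.aestronglyMeasurable

theorem udir_mul_nrm (z : Fin (n + 1) → ℝ) (i : Fin (n + 1)) : nrm z * udir z i = z i := by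
  rcases eq_or_ne (nrm z) 0 with h | h
  · have := abs_le_nrm z i
    rw [h, abs_nonpos_iff] at this
    rw [this, h, zero_mul]
  · rw [udir, ← nrm, mul_div_cancel₀ _ h]

/-- The Laplace transform of a radial function. -/
theorem integral_radial_exp {F : ℝ → ℝ} (hF : Measurable F) (c : ℝ)
    (hi : Integrable (fun z => F (nrm z) * exp (c * z 0)) (gauss (Fin (n + 1)))) :
    ∫ z, F (nrm z) * exp (c * z 0) ∂gauss (Fin (n + 1)) =
      ∫ z, F (nrm z) * dirExp n (c * nrm z) ∂gauss (Fin (n + 1)) := by
  have e : ∀ z : Fin (n + 1) → ℝ, exp (c * nrm z * udir z 0) = exp (c * z 0) := fun z => by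
    rw [mul_assoc, udir_mul_nrm]
  have h := integral_polar (n := n) (F := F) (Ψ := fun r t => exp (c * r * t)) hF
    (Measurable.exp (by fun_prop)) (by simpa only [e] using hi)
  simp only [e] at h
  exact h

/-- The Laplace transform of a radial function times the direction. -/
theorem integral_radial_exp1 {F : ℝ → ℝ} (hF : Measurable F) (c : ℝ)
    (hi : Integrable (fun z => F (nrm z) * (udir z 0 * exp (c * z 0))) (gauss (Fin (n + 1)))) :
    ∫ z, F (nrm z) * (udir z 0 * exp (c * z 0)) ∂gauss (Fin (n + 1)) =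
      ∫ z, F (nrm z) * dirMean n (c * nrm z) * dirExp n (c * nrm z) ∂gauss (Fin (n + 1)) := by
  have e : ∀ z : Fin (n + 1) → ℝ, exp (c * nrm z * udir z 0) = exp (c * z 0) := fun z => by
    rw [mul_assoc, udir_mul_nrm]
  have h := integral_polar (n := n) (F := F) (Ψ := fun r t => t * exp (c * r * t)) hF
    (show Measurable fun p : ℝ × ℝ => p.2 * exp (c * p.1 * p.2) by fun_prop)
    (by simpa only [e] using hi)
  simp only [e] at h
  rw [h]
  refine integral_congr_ae (Eventually.of_forall fun z => ?_)
  simp only [mul_assoc]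
  rw [← dirExp1_eq]
  simp only [dirExp1, mul_assoc]

/-- The exponential moment of a uniform direction along a vector. -/
theorem integral_dir_dot (v : Fin (n + 1) → ℝ) :
    ∫ a, exp (∑ i, a i * v i) ∂unitUnif (Fin (n + 1)) = dirExp n (nrm v) := by
  rw [dirExp, ← map_udir,
    integral_map measurable_udir.aemeasurable (Measurable.aestronglyMeasurable (by fun_prop)),
    integral_map measurable_udir.aemeasurable (Measurable.aestronglyMeasurable (by fun_prop)),
    ← integral_refl v (f := fun z => exp (nrm v * udir z 0))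
      (Measurable.exp (((measurable_pi_apply 0).comp measurable_udir).const_mul _))]
  refine integral_congr_ae (Eventually.of_forall fun z => ?_)
  simp only
  have hn : √(normSqF (refl v z)) = √(normSqF z) := by rw [normSqF_refl]
  congr 1
  simp only [udir, hn, div_mul_eq_mul_div, ← sum_div, mul_div_assoc']
  rw [refl_dot v z]

end Vale.Agent.P157.RadG
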